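import Crest.Agent.R092.Tree

set_option autoImplicit false

/-! A maximising node of the tree approximates `log y` within its error bound. -/

namespace Crest.Agent.R092

open Real Finset

namespace Par

variable (p : Par)

/-- the slopes are sorted -/
def Valid (κ : ℕ → ℤ) : Prop := ∀ i, i + 1 < p.n → p.wv κ (i + 1) ≤ p.wv κ i

/-- value of the affine function of the leaf `κ` at `y` -/
noncomputable def val (κ : ℕ → ℤ) (y : ℕ → ℝ) : ℝ := dot p.n (p.wv κ) y - (p.st κ p.n).g

/-- range of the competitors -/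
noncomputable def Lam : ℝ := 2 * (p.L 0 * p.E0) + 1

lemma Valid.anti {p : Par} {κ : ℕ → ℤ} (h : p.Valid κ) {i j : ℕ} (hij : i ≤ j) (hj : j < p.n) :
    p.wv κ j ≤ p.wv κ i := by
  induction j, hij using Nat.le_induction with
  | base => exact le_rfl
  | succ j hij ih => exact (h j hj).trans (ih (by omega))

lemma comp_ineq {κ : ℕ → ℤ} (hκ : p.Valid κ) {y : ℕ → ℝ}
    (hmax : ∀ κ', p.Valid κ' → p.wv κ' 0 ≤ p.wv κ 0 + p.Lam → p.val κ' y ≤ p.val κ y)
    {i : ℕ} (hi : i < p.n) (k' : ℤ)
    (hcap : ∀ j, j + 1 = i → rho (p.PP κ i) (p.DD κ i) k' ≤ p.wv κ j)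
    (h0 : i = 0 → rho (p.PP κ i) (p.DD κ i) k' ≤ p.wv κ 0 + p.Lam) :
    ∑ j ∈ Ico i p.n, (rho (p.PP κ i) (p.DD κ i) k' - p.wv κ j) * y j ≤
      GG (p.PP κ i) (p.DD κ i) k' - GG (p.PP κ i) (p.DD κ i) (κ i) + 1 / 2 * Real.exp k' := by
  set q' := rho (p.PP κ i) (p.DD κ i) k' with hq'
  have hag : ∀ j < i, Function.update κ i k' j = κ j := fun j hj =>
    Function.update_of_ne (by omega) _ _
  obtain ⟨κ₂, h1, h2, h3⟩ := p.exists_tie_ext (Function.update κ i k') hi
  have hw1 : p.wv (Function.update κ i k') i = q' := by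
    unfold wv
    rw [p.PP_congr hag, p.DD_congr hag, Function.update_self]
  rw [hw1] at h2
  have hlow : ∀ j < i, p.wv κ₂ j = p.wv κ j := fun j hj =>
    p.wv_congr (fun l hl => by rw [h1 l (by omega), hag l (by omega)])
  rw [st_succ_g, p.PP_congr hag, p.DD_congr hag, Function.update_self, p.st_congr hag] at h3
  have hv2 : p.Valid κ₂ := by
    intro j hj
    rcases lt_trichotomy (j + 1) i with h | h | h
    · rw [hlow _ h, hlow j (by omega)]; exact hκ j hj
    · rw [h2 (j + 1) h.ge hj, hlow j (by omega)]; exact hcap j h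
    · rw [h2 (j + 1) h.le hj, h2 j (by omega) (by omega)]
  have hLam : 0 ≤ p.Lam := by
    unfold Lam
    have := p.hL2 0
    have := p.one_le_E0
    positivity
  have h00 : p.wv κ₂ 0 ≤ p.wv κ 0 + p.Lam := by
    rcases Nat.eq_zero_or_pos i with h | h
    · rw [h2 0 h.le (by omega)]; exact h0 h
    · rw [hlow 0 h]; linarith
  have hle := hmax κ₂ hv2 h00
  have hg : (p.st κ (i + 1)).g ≤ (p.st κ p.n).g := p.g_le κ (by omega) le_rfl
  rw [st_succ_g] at hg
  unfold val dot at hle
  rw [← sum_range_add_sum_Ico _ hi.le, ← sum_range_add_sum_Ico (fun j => p.wv κ j * y j) hi.le] at hle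
  have e1 : ∑ j ∈ range i, p.wv κ₂ j * y j = ∑ j ∈ range i, p.wv κ j * y j :=
    sum_congr rfl fun j hj => by rw [hlow j (mem_range.1 hj)]
  have e2 : ∑ j ∈ Ico i p.n, p.wv κ₂ j * y j = ∑ j ∈ Ico i p.n, q' * y j :=
    sum_congr rfl fun j hj => by rw [h2 j (mem_Ico.1 hj).1 (mem_Ico.1 hj).2]
  have e3 : ∑ j ∈ Ico i p.n, (q' - p.wv κ j) * y j =
      ∑ j ∈ Ico i p.n, q' * y j - ∑ j ∈ Ico i p.n, p.wv κ j * y j := by
    rw [← sum_sub_distrib]; exact sum_congr rfl fun j _ => by ring
  rw [e3]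
  rw [e1, e2] at hle
  linarith

theorem active {κ : ℕ → ℤ} (hκ : p.Valid κ) {y : ℕ → ℝ} (hy : ∀ i < p.n, 0 < y i)
    (hanti : ∀ i j, i ≤ j → j < p.n → y j ≤ y i)
    (hmax : ∀ κ', p.Valid κ' → p.wv κ' 0 ≤ p.wv κ 0 + p.Lam → p.val κ' y ≤ p.val κ y)
    {i : ℕ} (hi : i < p.n) : |Real.log (y i) - p.wv κ i| ≤ (p.st κ (i + 1)).E := by
  have hn' : (1 : ℝ) ≤ p.n := by exact_mod_cast (by omega : 1 ≤ p.n)
  -- lower bound
  have lower : ∀ i < p.n, p.wv κ i - (p.st κ (i + 1)).E ≤ Real.log (y i) := by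
    intro i hi
    have hS := p.sep κ hi
    have hD := p.one_le_DD κ i
    obtain ⟨k', hk1, hk2, hk3⟩ := exists_down hS hD (κ i)
    change rho _ _ k' + 1 ≤ p.wv κ i at hk2
    change p.wv κ i - _ ≤ _ at hk3
    have hc := p.comp_ineq hκ hmax hi k'
      (fun j hj => by
        have := hκ j (by omega)
        rw [hj] at this; linarith)
      (fun h => by
        subst h
        have hLam : 0 ≤ p.Lam := by
          unfold Lam
          have := p.hL2 0
          have := p.one_le_E0
          positivity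
        linarith)
    set q' := rho (p.PP κ i) (p.DD κ i) k'
    have hch := (GG_chord hS hD hk1).1
    change (p.wv κ i - q') * _ ≤ _ at hch
    set lam := p.wv κ i - q' with hlam
    have hsum : ∑ j ∈ Ico i p.n, (-lam * y i) ≤ ∑ j ∈ Ico i p.n, (q' - p.wv κ j) * y j := by
      apply sum_le_sum
      intro j hj
      have h1 := hκ.anti (mem_Ico.1 hj).1 (mem_Ico.1 hj).2
      have h2 := hanti i j (mem_Ico.1 hj).1 (mem_Ico.1 hj).2
      have h3 := hy j (mem_Ico.1 hj).2
      have h4 : -lam * y j ≤ (q' - p.wv κ j) * y j :=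
        mul_le_mul_of_nonneg_right (by linarith) h3.le
      have h5 : -lam * y i ≤ -lam * y j := by nlinarith
      linarith
    rw [sum_const, Nat.card_Ico, nsmul_eq_mul] at hsum
    have hcard : ((p.n - i : ℕ) : ℝ) ≤ p.n := by exact_mod_cast Nat.sub_le _ _
    have hyi := hy i hi
    have hl1 : 1 ≤ lam := by linarith
    have hek := Real.exp_pos (k' : ℝ)
    have h6 : lam * (Real.exp k' / 2) ≤ lam * (p.n * y i) := by
      have : ((p.n - i : ℕ) : ℝ) * (lam * y i) ≤ p.n * (lam * y i) :=
        mul_le_mul_of_nonneg_right hcard (by positivity)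
      nlinarith
    have h7 : Real.exp k' / 2 ≤ p.n * y i := le_of_mul_le_mul_left h6 (by linarith)
    have h8 : Real.exp k' ≤ (2 * p.n) * y i := by linarith
    have h9 : (k' : ℝ) ≤ Real.log (2 * p.n) + Real.log (y i) := by
      rw [← Real.log_mul (by linarith) hyi.ne', Real.le_log_iff_exp_le (by positivity)]
      exact h8
    have h10 : Real.log (2 * p.n) ≤ 2 * p.n := (Real.log_le_sub_one_of_pos (by linarith)).trans (by linarith)
    have h11 := p.err_le κ i
    linarith
  have upper0 : ∀ i < p.n, (∀ j, j + 1 = i → p.wv κ i < p.wv κ j) →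
      Real.log (y i) ≤ p.wv κ i + (p.st κ (i + 1)).E := by
    intro i hi hlt
    have hS := p.sep κ hi
    have hD := p.one_le_DD κ i
    obtain ⟨k', hk1, hk2, hk3, hk4⟩ := exists_up hS hD (κ i)
    change p.wv κ i + 1 ≤ rho _ _ k' at hk2
    change _ ≤ p.wv κ i + _ at hk3
    have hc := p.comp_ineq hκ hmax hi k'
      (fun j hj => by
        subst hj
        exact hk4 _ (p.cap_mem κ hi) (hlt j rfl))
      (fun h => by
        subst h
        have h1 := abs_lt.1 (rho_close (P := p.PP κ 0) hD k')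
        have h2 : err (p.PP κ 0) (p.DD κ 0) (κ 0) ≤ p.DD κ 0 + 1 := by
          unfold err; split_ifs <;> linarith
        have h3 : p.DD κ 0 = p.L 0 * p.E0 := rfl
        unfold Lam
        linarith)
    have hch := (GG_chord hS hD hk1).2
    change _ ≤ (_ - p.wv κ i) * _ at hch
    set q' := rho (p.PP κ i) (p.DD κ i) k'
    have hsum : (q' - p.wv κ i) * y i ≤ ∑ j ∈ Ico i p.n, (q' - p.wv κ j) * y j :=
      Finset.single_le_sum (f := fun j => (q' - p.wv κ j) * y j) (fun j hj => by
        have h1 := hκ.anti (mem_Ico.1 hj).1 (mem_Ico.1 hj).2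
        have h3 := hy j (mem_Ico.1 hj).2
        exact mul_nonneg (by linarith) h3.le) (mem_Ico.2 ⟨le_rfl, hi⟩)
    have hyi := hy i hi
    have hek := Real.exp_pos (k' : ℝ)
    have h11 := p.err_le κ i
    have h6 : y i ≤ 2 * Real.exp k' :=
      le_of_mul_le_mul_left (a := q' - p.wv κ i) (by nlinarith) (by linarith)
    have h9 := Real.log_le_log hyi h6
    rw [Real.log_mul (by norm_num) hek.ne', Real.log_exp] at h9
    have h10 : Real.log 2 ≤ 1 := (Real.log_le_sub_one_of_pos (by norm_num)).trans (by norm_num)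
    linarith
  have upper : ∀ i < p.n, Real.log (y i) ≤ p.wv κ i + (p.st κ (i + 1)).E := by
    intro i
    induction i with
    | zero => intro hi; exact upper0 0 hi (fun j hj => by omega)
    | succ i ih =>
      intro hi
      by_cases htie : p.wv κ (i + 1) = p.wv κ i
      · have h1 := ih (by omega)
        have h2 : Real.log (y (i + 1)) ≤ Real.log (y i) :=
          Real.log_le_log (hy _ hi) (hanti i (i + 1) (by omega) hi)
        have h3 := p.E_le_succ κ (i + 1)
        rw [htie]; linarith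
      · apply upper0 _ hi
        intro j hj
        have hj' : j = i := by omega
        subst hj'
        exact lt_of_le_of_ne (hκ j hi) htie
  rw [abs_le]
  constructor
  · linarith [lower i hi]
  · linarith [upper i hi]

end Par

end Crest.Agent.R092
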