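import Mathlib
import Crest.Prelude.Def_MassAction

set_option autoImplicit false

/-! Dynamics: locally finite families of half-spaces, invariance, absorption, global solutions. -/

namespace Crest.Agent.R092

open Set Filter Topology Crest.AnalysisR.MassAction

variable {d : ℕ}

/-- the box `[r, R]^d` -/
def box (d : ℕ) (r R : ℝ) : Set (Fin d → ℝ) := {x | ∀ i, r ≤ x i ∧ x i ≤ R}

lemma box_eq (r R : ℝ) : box d r R = Icc (fun _ => r) (fun _ => R) := by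
  ext x; simp [box, Set.mem_Icc, Pi.le_def, forall_and]

lemma isCompact_box (r R : ℝ) : IsCompact (box d r R) := by
  rw [box_eq]; exact isCompact_Icc

/-- a family of half-spaces, only finitely many of which are reached in a box -/
def LocFin (F : Set ((Fin d → ℝ) × ℝ)) : Prop :=
  ∀ r R : ℝ, 0 < r → {p ∈ F | ∃ x ∈ box d r R, p.2 ≤ p.1 ⬝ᵥ x}.Finite

/-- the intersection of the half-spaces -/
def Hs (F : Set ((Fin d → ℝ) × ℝ)) : Set (Fin d → ℝ) := {x | ∀ p ∈ F, p.1 ⬝ᵥ x ≤ p.2}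

lemma continuous_dot (u : Fin d → ℝ) : Continuous fun x : Fin d → ℝ => u ⬝ᵥ x := by
  unfold dotProduct; fun_prop

lemma isClosed_Hs (F : Set ((Fin d → ℝ) × ℝ)) : IsClosed (Hs F) := by
  have : Hs F = ⋂ p ∈ F, {x | p.1 ⬝ᵥ x ≤ p.2} := by ext x; simp [Hs]
  rw [this]
  exact isClosed_biInter fun p _ => isClosed_le (continuous_dot _) continuous_const

lemma convex_Hs (F : Set ((Fin d → ℝ) × ℝ)) : Convex ℝ (Hs F) := by
  intro x hx y hy a b ha hb hab p hp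
  have h1 := hx p hp
  have h2 := hy p hp
  rw [dotProduct_add, dotProduct_smul, dotProduct_smul, smul_eq_mul, smul_eq_mul]
  have : p.2 = a * p.2 + b * p.2 := by rw [← add_mul, hab, one_mul]
  nlinarith

lemma hasDeriv_dot (u : Fin d → ℝ) {γ : ℝ → Fin d → ℝ} {v : Fin d → ℝ} {s : Set ℝ} {t : ℝ}
    (h : HasDerivWithinAt γ v s t) : HasDerivWithinAt (fun t => u ⬝ᵥ γ t) (u ⬝ᵥ v) s t := by
  unfold dotProduct
  exact HasDerivWithinAt.fun_sum fun i _ => (hasDerivWithinAt_pi.1 h i).const_mul (u i)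

lemma eventually_le_of_deriv {φ : ℝ → ℝ} {φ' c t : ℝ} (h : HasDerivWithinAt φ φ' (Ici t) t)
    (hc : φ' < c) : ∀ᶠ s in 𝓝[>] t, φ s ≤ φ t + c * (s - t) := by
  have h1 := (hasDerivWithinAt_iff_tendsto_slope' (show t ∉ Ioi t by simp)).1 h.Ioi_of_Ici
  filter_upwards [h1.eventually (gt_mem_nhds hc), self_mem_nhdsWithin] with s hs hst
  rw [slope_def_field, div_lt_iff₀ (sub_pos.2 hst)] at hs
  linarith

lemma tendsto_of_deriv {γ : ℝ → Fin d → ℝ} {v : Fin d → ℝ} {t : ℝ}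
    (h : HasDerivWithinAt γ v (Ici t) t) : Tendsto γ (𝓝[>] t) (𝓝 (γ t)) :=
  h.continuousWithinAt.tendsto.mono_left (nhdsWithin_mono _ Ioi_subset_Ici_self)

lemma exists_box_nhds {x : Fin d → ℝ} (hx : ∀ i, 0 < x i) :
    ∃ r R : ℝ, 0 < r ∧ box d r R ∈ 𝓝 x := by
  obtain ⟨r, hr, hr'⟩ : ∃ r : ℝ, 0 < r ∧ ∀ i, r < x i := by
    have : ∀ᶠ r in 𝓝[>] (0 : ℝ), ∀ i, r < x i :=
      eventually_all.2 fun i => nhdsWithin_le_nhds (gt_mem_nhds (hx i))
    obtain ⟨r, h1, h2⟩ := (this.and self_mem_nhdsWithin).exists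
    exact ⟨r, h2, h1⟩
  obtain ⟨R, hR⟩ : ∃ R : ℝ, ∀ i, x i < R := by
    have : ∀ᶠ R in atTop, ∀ i, x i < R := eventually_all.2 fun i => eventually_gt_atTop _
    exact this.exists
  refine ⟨r, R, hr, ?_⟩
  rw [box_eq]
  exact pi_Icc_mem_nhds hr' hR

/-- closed convex sets that are locally forward invariant and absorb bounded persistent
solutions -/
structure Nice (f : (Fin d → ℝ) → (Fin d → ℝ)) (T Q : Set (Fin d → ℝ)) : Prop where
  closed : IsClosed Q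
  convex : Convex ℝ Q
  inv : ∀ (γ : ℝ → Fin d → ℝ) (t : ℝ), γ t ∈ Q → γ t ∈ T → (∀ i, 0 < γ t i) →
    HasDerivWithinAt γ (f (γ t)) (Ici t) t → ∀ᶠ s in 𝓝[>] t, γ s ∈ Q
  abs : ∀ γ : ℝ → Fin d → ℝ, IsForwardSolution f γ → ∀ r R : ℝ, 0 < r →
    (∀ t, 0 ≤ t → γ t ∈ T ∧ γ t ∈ box d r R) → ∃ t₀, 0 ≤ t₀ ∧ ∀ t, t₀ ≤ t → γ t ∈ Q

lemma Nice.univ (f : (Fin d → ℝ) → (Fin d → ℝ)) (T : Set (Fin d → ℝ)) : Nice f T univ :=
  ⟨isClosed_univ, convex_univ, fun _ _ _ _ _ _ => Eventually.of_forall fun _ => trivial,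
    fun _ _ _ _ _ _ => ⟨0, le_rfl, fun _ _ => trivial⟩⟩

theorem Nice.step {f : (Fin d → ℝ) → (Fin d → ℝ)} {T Q : Set (Fin d → ℝ)} (hf : Continuous f)
    (hT : IsClosed T) (hQ : Nice f T Q) {F : Set ((Fin d → ℝ) × ℝ)} (hF : LocFin F)
    (hact : ∀ x ∈ Q, x ∈ T → (∀ i, 0 < x i) → ∀ p ∈ F, p.2 ≤ p.1 ⬝ᵥ x →
      (∀ p' ∈ F, p'.1 ⬝ᵥ x - p'.2 ≤ p.1 ⬝ᵥ x - p.2) → p.1 ⬝ᵥ f x < 0) :
    Nice f T (Q ∩ Hs F) := by
  refine ⟨hQ.closed.inter (isClosed_Hs F), hQ.convex.inter (convex_Hs F), ?_, ?_⟩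
  · intro γ t hQF hγT hpos hder
    obtain ⟨r, R, hr, hbox⟩ := exists_box_nhds hpos
    have h1 := hQ.inv γ t hQF.1 hγT hpos hder
    have h2 : ∀ᶠ s in 𝓝[>] t, γ s ∈ box d r R := tendsto_of_deriv hder hbox
    have h3 : ∀ᶠ s in 𝓝[>] t, ∀ p ∈ {p ∈ F | ∃ x ∈ box d r R, p.2 ≤ p.1 ⬝ᵥ x},
        p.1 ⬝ᵥ γ s ≤ p.2 := by
      rw [eventually_all_finite (hF r R hr)]
      rintro p ⟨hp, -⟩
      rcases (hQF.2 p hp).lt_or_eq with h | h
      · exact (((continuous_dot p.1).tendsto _).comp (tendsto_of_deriv hder)).eventually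
          (ge_mem_nhds h)
      · have h4 := hact _ hQF.1 hγT hpos p hp h.ge (fun p' hp' => by
          have := hQF.2 p' hp'; linarith)
        filter_upwards [eventually_le_of_deriv (hasDeriv_dot p.1 hder) h4] with s hs
        linarith
    filter_upwards [h1, h2, h3] with s hs1 hs2 hs3
    refine ⟨hs1, fun p hp => ?_⟩
    by_contra hlt
    exact hlt (hs3 p ⟨hp, γ s, hs2, (not_le.1 hlt).le⟩)
  · intro γ hγ r R hr hb
    obtain ⟨t₀, ht₀, hQt⟩ := hQ.abs γ hγ r R hr hb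
    set J := {p ∈ F | ∃ x ∈ box d r R, p.2 ≤ p.1 ⬝ᵥ x} with hJ
    have hJf : J.Finite := hF r R hr
    -- uniform rate
    have hrate : ∀ p ∈ J, ∀ᶠ κ in 𝓝[>] (0 : ℝ), ∀ x ∈ Q, x ∈ T → x ∈ box d r R →
        p.2 ≤ p.1 ⬝ᵥ x → (∀ p' ∈ J, p'.1 ⬝ᵥ x - p'.2 ≤ p.1 ⬝ᵥ x - p.2) → p.1 ⬝ᵥ f x < -κ := by
      intro p hp
      set Z := {x | x ∈ Q ∧ x ∈ T ∧ x ∈ box d r R ∧ p.2 ≤ p.1 ⬝ᵥ x ∧
        ∀ p' ∈ J, p'.1 ⬝ᵥ x - p'.2 ≤ p.1 ⬝ᵥ x - p.2} with hZ
      have hZc : IsCompact Z := by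
        apply (isCompact_box r R).of_isClosed_subset _ (fun x hx => hx.2.2.1)
        have : Z = Q ∩ (T ∩ (box d r R ∩ ({x | p.2 ≤ p.1 ⬝ᵥ x} ∩
            ⋂ p' ∈ J, {x | p'.1 ⬝ᵥ x - p'.2 ≤ p.1 ⬝ᵥ x - p.2}))) := by
          ext x; simp only [hZ, mem_inter_iff, mem_iInter, mem_ofPred_eq]
        rw [this]
        refine hQ.closed.inter (hT.inter ((isCompact_box r R).isClosed.inter
          ((isClosed_le continuous_const (continuous_dot _)).inter
            (isClosed_biInter fun p' _ => isClosed_le ?_ ?_))))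
        · exact (continuous_dot _).sub continuous_const
        · exact (continuous_dot _).sub continuous_const
      have hneg : ∀ x ∈ Z, p.1 ⬝ᵥ f x < 0 := by
        rintro x ⟨h1, h2, h3, h4, h5⟩
        refine hact x h1 h2 (fun i => hr.trans_le (h3 i).1) p hp.1 h4 (fun p' hp' => ?_)
        by_cases h : p'.2 ≤ p'.1 ⬝ᵥ x
        · exact h5 p' ⟨hp', x, h3, h⟩
        · linarith
      rcases Z.eq_empty_or_nonempty with h | h
      · refine Eventually.of_forall fun κ x h1 h2 h3 h4 h5 => ?_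
        have : x ∈ Z := ⟨h1, h2, h3, h4, h5⟩
        rw [h] at this; exact this.elim
      · obtain ⟨x₀, hx₀, hmax⟩ := hZc.exists_isMaxOn h
          (((continuous_dot p.1).comp hf).continuousOn)
        have h0 := hneg x₀ hx₀
        have : ∀ᶠ κ in 𝓝[>] (0 : ℝ), κ < -(p.1 ⬝ᵥ f x₀) :=
          nhdsWithin_le_nhds (gt_mem_nhds (by linarith))
        filter_upwards [this] with κ hκ x h1 h2 h3 h4 h5
        have : p.1 ⬝ᵥ f x ≤ p.1 ⬝ᵥ f x₀ := hmax (show x ∈ Z from ⟨h1, h2, h3, h4, h5⟩)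
        linarith
    obtain ⟨κ, hκ, hκ0⟩ := (((eventually_all_finite hJf).2 hrate).and self_mem_nhdsWithin).exists
    have hκ0 : 0 < κ := hκ0
    obtain ⟨B, hB⟩ := (hJf.image (fun p => p.1 ⬝ᵥ γ t₀ - p.2)).bddAbove
    set h : ℝ → ℝ := fun t => max (B - κ * (t - t₀)) 0 with hh
    have hhc : Continuous h := by rw [hh]; fun_prop
    set s : Set ℝ := {t | ∀ p ∈ J, p.1 ⬝ᵥ γ t - p.2 ≤ h t} with hs
    have hcont : ContinuousOn γ (Ici 0) := fun t ht => (hγ t ht).continuousWithinAt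
    have hall : ∀ b, Icc t₀ b ⊆ s := by
      intro b
      apply IsClosed.Icc_subset_of_forall_mem_nhdsWithin
      · have hC : IsClosed {q : (Fin d → ℝ) × ℝ | ∀ p ∈ J, p.1 ⬝ᵥ q.1 - p.2 ≤ h q.2} := by
          have : {q : (Fin d → ℝ) × ℝ | ∀ p ∈ J, p.1 ⬝ᵥ q.1 - p.2 ≤ h q.2} =
              ⋂ p ∈ J, {q : (Fin d → ℝ) × ℝ | p.1 ⬝ᵥ q.1 - p.2 ≤ h q.2} := by
            ext q; simp only [mem_iInter, mem_ofPred_eq]
          rw [this]
          exact isClosed_biInter fun p _ => isClosed_le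
            (((continuous_dot _).comp continuous_fst).sub continuous_const) (hhc.comp continuous_snd)
        have hc2 : ContinuousOn (fun t => (γ t, t)) (Icc t₀ b) :=
          (hcont.mono fun t ht => ht₀.trans ht.1).prodMk continuousOn_id
        rw [inter_comm]
        exact hc2.preimage_isClosed_of_isClosed isClosed_Icc hC
      · intro p hp
        have := hB ⟨p, hp, rfl⟩
        simp only [hh, sub_self, mul_zero, sub_zero]
        exact this.trans (le_max_left _ _)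
      · rintro t ⟨hts, ht1, -⟩
        have ht0 : 0 ≤ t := ht₀.trans ht1
        have hder : HasDerivWithinAt γ (f (γ t)) (Ici t) t := (hγ t ht0).mono (Ici_subset_Ici.2 ht0)
        change ∀ᶠ t' in 𝓝[>] t, ∀ p ∈ J, p.1 ⬝ᵥ γ t' - p.2 ≤ h t'
        rw [eventually_all_finite hJf]
        intro p hp
        rcases (hts p hp).lt_or_eq with hlt | heq
        · have h1 : Tendsto (fun t' => h t' - (p.1 ⬝ᵥ γ t' - p.2)) (𝓝[>] t)
              (𝓝 (h t - (p.1 ⬝ᵥ γ t - p.2))) :=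
            ((hhc.tendsto t).mono_left nhdsWithin_le_nhds).sub
              ((((continuous_dot p.1).tendsto _).comp (tendsto_of_deriv hder)).sub tendsto_const_nhds)
          filter_upwards [h1.eventually (le_mem_nhds (sub_pos.2 hlt))] with t' ht'
          linarith
        · have h0 : 0 ≤ h t := le_max_right _ _
          have h4 := hκ p hp (γ t) (hQt t ht1) (hb t ht0).1 (hb t ht0).2 (by linarith)
            (fun p' hp' => by have := hts p' hp'; linarith)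
          filter_upwards [eventually_le_of_deriv (hasDeriv_dot p.1 hder) h4, self_mem_nhdsWithin]
            with t' ht' htt'
          have h5 : 0 < t' - t := sub_pos.2 htt'
          have h6 : h t - κ * (t' - t) ≤ h t' := by
            simp only [hh]
            rw [sub_le_iff_le_add]
            apply max_le
            · have := le_max_left (B - κ * (t' - t₀)) 0
              linarith
            · have := le_max_right (B - κ * (t' - t₀)) 0
              have := mul_pos hκ0 h5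
              linarith
          linarith
    refine ⟨t₀ + max B 0 / κ, by positivity, fun t ht => ?_⟩
    have h1 : 0 ≤ max B 0 / κ := by positivity
    have ht1 : t₀ ≤ t := by linarith
    refine ⟨hQt t ht1, fun p hp => ?_⟩
    by_contra hlt
    have h2 := hall t ⟨ht1, le_rfl⟩ p ⟨hp, γ t, (hb t (ht₀.trans ht1)).2, (not_le.1 hlt).le⟩
    have h3 : h t ≤ 0 := by
      apply max_le _ le_rfl
      have h4 : max B 0 / κ ≤ t - t₀ := by linarith
      rw [div_le_iff₀ hκ0] at h4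
      have := le_max_left B 0
      linarith
    exact hlt (by linarith)

/-- forward invariance -/
theorem Nice.invariant {f : (Fin d → ℝ) → (Fin d → ℝ)} {T Q : Set (Fin d → ℝ)}
    (hQ : Nice f T Q) {r : ℝ} (hr : 0 < r)
    (hlow : ∀ x ∈ Q, (∀ i, 0 < x i) → ∀ i, r ≤ x i) {γ v : ℝ → Fin d → ℝ}
    (hγ : ∀ t, 0 ≤ t → HasDerivWithinAt γ (v t) (Ici 0) t) (hT : ∀ t, 0 ≤ t → γ t ∈ T)
    (hv : ∀ t, 0 ≤ t → γ t ∈ Q → (∀ i, 0 < γ t i) → v t = f (γ t))
    (h0 : γ 0 ∈ Q) (h0' : ∀ i, 0 < γ 0 i) : ∀ t, 0 ≤ t → γ t ∈ Q ∧ ∀ i, 0 < γ t i := by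
  intro b hb
  have hcont : ContinuousOn γ (Ici 0) := fun t ht => (hγ t ht).continuousWithinAt
  have hC : IsClosed (Q ∩ {x | ∀ i, r ≤ x i}) := by
    apply hQ.closed.inter
    have : {x : Fin d → ℝ | ∀ i, r ≤ x i} = Ici (fun _ => r) := by
      ext x; simp [Pi.le_def]
    rw [this]; exact isClosed_Ici
  have hall : Icc 0 b ⊆ γ ⁻¹' (Q ∩ {x | ∀ i, r ≤ x i}) := by
    apply IsClosed.Icc_subset_of_forall_mem_nhdsWithin
    · rw [inter_comm]
      exact (hcont.mono Icc_subset_Ici_self).preimage_isClosed_of_isClosed isClosed_Icc hC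
    · exact ⟨h0, hlow _ h0 h0'⟩
    · rintro t ⟨⟨h1, h2⟩, ht0, -⟩
      have hpos : ∀ i, 0 < γ t i := fun i => hr.trans_le (h2 i)
      have hder : HasDerivWithinAt γ (f (γ t)) (Ici t) t := by
        rw [← hv t ht0 h1 hpos]; exact (hγ t ht0).mono (Ici_subset_Ici.2 ht0)
      obtain ⟨r', R', hr', hbox⟩ := exists_box_nhds hpos
      filter_upwards [hQ.inv γ t h1 (hT t ht0) hpos hder, tendsto_of_deriv hder hbox] with s hs1 hs2
      exact ⟨hs1, hlow _ hs1 fun i => hr'.trans_le (hs2 i).1⟩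
  obtain ⟨h1, h2⟩ := hall ⟨hb, le_rfl⟩
  exact ⟨h1, fun i => hr.trans_le (h2 i)⟩

/-- a curve with velocity in a subspace stays in the affine subspace -/
lemma sub_mem_of_deriv_mem (S : Submodule ℝ (Fin d → ℝ)) {γ v : ℝ → Fin d → ℝ}
    (hγ : ∀ t, 0 ≤ t → HasDerivWithinAt γ (v t) (Ici 0) t) (hv : ∀ t, 0 ≤ t → v t ∈ S)
    {t : ℝ} (ht : 0 ≤ t) : γ t - γ 0 ∈ S := by
  rw [← Subspace.forall_mem_dualAnnihilator_apply_eq_zero_iff]
  intro φ hφ
  rw [Submodule.mem_dualAnnihilator] at hφ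
  let ψ : (Fin d → ℝ) →L[ℝ] ℝ := LinearMap.toContinuousLinearMap φ
  have hder : ∀ s, 0 ≤ s → HasDerivWithinAt (fun s => ψ (γ s)) 0 (Ici 0) s := by
    intro s hs
    have := ψ.hasFDerivAt.comp_hasDerivWithinAt s (hγ s hs)
    have h0 : ψ (v s) = 0 := hφ _ (hv s hs)
    rw [h0] at this
    exact this
  have := constant_of_has_deriv_right_zero (f := fun s => ψ (γ s)) (a := 0) (b := t)
    (fun s hs => ((hder s hs.1).continuousWithinAt).mono Icc_subset_Ici_self)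
    (fun s hs => (hder s hs.1).mono (Ici_subset_Ici.2 hs.1)) t ⟨ht, le_rfl⟩
  rw [map_sub]
  exact sub_eq_zero.2 this

/-- global existence for a bounded Lipschitz field -/
theorem exists_global {g : (Fin d → ℝ) → (Fin d → ℝ)} {K L : NNReal} (hg : LipschitzWith K g)
    (hb : ∀ x, ‖g x‖ ≤ L) (x₀ : Fin d → ℝ) :
    ∃ γ : ℝ → Fin d → ℝ, IsForwardSolution g γ ∧ γ 0 = x₀ := by
  have hN : ∀ N : ℕ, ∃ α : ℝ → Fin d → ℝ, α 0 = x₀ ∧
      ∀ t ∈ Icc (0 : ℝ) N, HasDerivWithinAt α (g (α t)) (Icc (0 : ℝ) N) t := by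
    intro N
    have hpl : IsPicardLindelof (fun _ : ℝ => g) (tmin := 0) (tmax := N)
        ⟨0, le_rfl, Nat.cast_nonneg N⟩ x₀ (L * N) 0 L K :=
      ⟨fun _ _ => hg.lipschitzOnWith, fun _ _ => continuousOn_const, fun _ _ x _ => hb x, by simp⟩
    exact hpl.exists_eq_forall_mem_Icc_hasDerivWithinAt₀
  choose α hα0 hα using hN
  have hder : ∀ (N : ℕ) (b : ℝ), b ≤ N → ∀ t ∈ Ico 0 b,
      HasDerivWithinAt (α N) (g (α N t)) (Ici t) t := by
    intro N b hbN t ht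
    apply (hα N t ⟨ht.1, by linarith [ht.2]⟩).mono_of_mem_nhdsWithin
    exact mem_of_superset (Icc_mem_nhdsGE (show t < N by linarith [ht.2])) (Icc_subset_Icc_left ht.1)
  have huniq : ∀ (N M : ℕ) (t : ℝ), 0 ≤ t → t ≤ N → t ≤ M → α N t = α M t := by
    intro N M t ht hN hM
    refine ODE_solution_unique (v := fun _ => g) (fun _ => hg) (a := 0) (b := t) ?_ (hder N t hN) ?_
      (hder M t hM) (by rw [hα0, hα0]) ⟨ht, le_rfl⟩
    · exact (HasDerivWithinAt.continuousOn (hα N)).mono (Icc_subset_Icc_right hN)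
    · exact (HasDerivWithinAt.continuousOn (hα M)).mono (Icc_subset_Icc_right hM)
  refine ⟨fun t => α ⌈t⌉₊ t, fun t ht => ?_, hα0 _⟩
  set N := ⌈t⌉₊ + 1 with hNdef
  have htN : t < N := by
    have := Nat.le_ceil t
    rw [hNdef]; push_cast; linarith
  have hmem : Icc (0 : ℝ) N ∈ 𝓝[Ici 0] t := by
    rw [mem_nhdsWithin]
    exact ⟨Iio (N : ℝ), isOpen_Iio, htN, fun s hs => ⟨hs.2, le_of_lt hs.1⟩⟩
  have h1 := (hα N t ⟨ht, htN.le⟩).mono_of_mem_nhdsWithin hmem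
  have h2 : α ⌈t⌉₊ t = α N t := huniq _ _ t ht (Nat.le_ceil t) htN.le
  simp only
  rw [h2]
  refine h1.congr_of_eventuallyEq (f₁ := fun t => α ⌈t⌉₊ t) ?_ h2
  filter_upwards [hmem] with s hs
  exact huniq _ _ s hs.1 (Nat.le_ceil s) hs.2

end Crest.Agent.R092
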