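import Crest.Agent.R092.Active

set_option autoImplicit false

/-! The key lemma: a locally finite family of affine functions whose maximisers at a sorted
positive point `y` have slope close to `log y` and sign pattern compatible with `log y`. -/

namespace Crest.Agent.R092

open Real Finset

lemma exists_closure (n : ℕ) (A : Set (ℕ → ℝ)) (hA : A.Finite) :
    ∃ B : Set (ℕ → ℝ), B.Finite ∧ A ⊆ B ∧ (∀ i < n, ClosedAt B i) ∧
      ∀ a ∈ B, a ∈ A ∨ ∀ j, n ≤ j → a j = 0 := by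
  induction n generalizing A with
  | zero => exact ⟨A, hA, subset_rfl, fun i hi => by omega, fun a ha => Or.inl ha⟩
  | succ n ih =>
    set Z : Set (ℕ → ℝ) := {z | ∃ a ∈ A, ∃ a' ∈ A, a n ≠ 0 ∧ a' n ≠ 0 ∧ (∀ j, n < j → a j = 0) ∧
      (∀ j, n < j → a' j = 0) ∧ z = fun j => a j / a n - a' j / a' n} with hZ
    have hZf : Z.Finite := by
      apply ((hA.prod hA).image (fun q : (ℕ → ℝ) × (ℕ → ℝ) =>
        fun j => q.1 j / q.1 n - q.2 j / q.2 n)).subset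
      rintro z ⟨a, ha, a', ha', -, -, -, -, rfl⟩
      exact ⟨(a, a'), ⟨ha, ha'⟩, rfl⟩
    have hZ0 : ∀ z ∈ Z, ∀ j, n ≤ j → z j = 0 := by
      rintro z ⟨a, ha, a', ha', h1, h2, h3, h4, rfl⟩ j hj
      rcases hj.lt_or_eq with h | h
      · simp [h3 j h, h4 j h]
      · subst h; simp [div_self h1, div_self h2]
    obtain ⟨B, hB, hAB, hcl, hel⟩ := ih (A ∪ Z) (hA.union hZf)
    have hel' : ∀ a ∈ B, a ∈ A ∨ ∀ j, n ≤ j → a j = 0 := by
      intro a ha
      rcases hel a ha with (h | h) | h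
      · exact Or.inl h
      · exact Or.inr (hZ0 a h)
      · exact Or.inr h
    refine ⟨B, hB, Set.subset_union_left.trans hAB, ?_, ?_⟩
    · intro i hi
      rcases Nat.lt_succ_iff_lt_or_eq.1 hi with h | h
      · exact hcl i h
      · subst h
        intro a ha a' ha' h1 h2 h3 h4
        have h5 : a ∈ A := (hel' a ha).resolve_right (fun h => h1 (h i le_rfl))
        have h6 : a' ∈ A := (hel' a' ha').resolve_right (fun h => h2 (h i le_rfl))
        exact hAB (Or.inr ⟨a, h5, a', h6, h1, h2, h3, h4, rfl⟩)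
    · intro a ha
      rcases hel' a ha with h | h
      · exact Or.inl h
      · exact Or.inr fun j hj => h j (by omega)

lemma exists_pos_lower (S : Set ℝ) (hS : S.Finite) (hpos : ∀ x ∈ S, 0 < x) :
    ∃ μ : ℝ, 0 < μ ∧ μ ≤ 1 ∧ ∀ x ∈ S, μ ≤ x := by
  induction S, hS using Set.Finite.induction_on with
  | empty => exact ⟨1, one_pos, le_rfl, by simp⟩
  | @insert a S _ _ ih =>
    obtain ⟨μ, h1, h2, h3⟩ := ih (fun x hx => hpos x (Or.inr hx))
    refine ⟨min μ a, lt_min h1 (hpos a (Or.inl rfl)), (min_le_left _ _).trans h2, ?_⟩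
    rintro x (rfl | hx)
    · exact min_le_right _ _
    · exact (min_le_left _ _).trans (h3 x hx)

lemma exists_gamma (n : ℕ) {μ K0 : ℝ} (hμ : 0 < μ) (hμ1 : μ ≤ 1) (hK : 2 ≤ K0) :
    ∃ γ L : ℕ → ℝ, K0 ≤ γ n ∧ (∀ i < n, γ (i + 1) ≤ μ * L i) ∧ (∀ i < n, 2 * L i ^ 2 ≤ γ i) ∧
      ∀ i, 2 ≤ L i := by
  let Kf : ℕ → ℝ := fun r => Nat.rec K0 (fun _ k => 2 * (k / μ) ^ 2) r
  have h0 : Kf 0 = K0 := rfl
  have hs : ∀ r, Kf (r + 1) = 2 * (Kf r / μ) ^ 2 := fun r => rfl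
  have hdiv : ∀ x : ℝ, 2 ≤ x → 2 ≤ x / μ := by
    intro x hx
    rw [le_div_iff₀ hμ]; nlinarith
  have h2 : ∀ r, 2 ≤ Kf r := by
    intro r
    induction r with
    | zero => exact hK
    | succ r ih => rw [hs]; have := hdiv _ ih; nlinarith
  refine ⟨fun i => Kf (n - i), fun i => Kf (n - (i + 1)) / μ, by simp [h0], ?_, ?_, ?_⟩
  · intro i _
    simp only
    rw [mul_div_cancel₀ _ hμ.ne']
  · intro i hi
    simp only
    have : n - i = (n - (i + 1)) + 1 := by omega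
    rw [this, hs]
  · intro i; exact hdiv _ (h2 _)

lemma exists_par (n : ℕ) (A : Set (ℕ → ℝ)) (hA : A.Finite) (hA0 : ∀ a ∈ A, ∀ j, n ≤ j → a j = 0)
    (K0 δ : ℝ) : ∃ p : Par, p.n = n ∧ A ⊆ p.A ∧ K0 ≤ p.γ n ∧ δ < p.E0 := by
  have hbr : (braidVec '' {i | i + 1 < n}).Finite := by
    apply Set.Finite.image
    exact (Set.finite_Iio n).subset (fun i hi => by
      simp only [Set.mem_ofPred_eq] at hi; simp only [Set.mem_Iio]; omega)
  obtain ⟨B, hB, hAB, hcl, hel⟩ := exists_closure n (A ∪ braidVec '' {i | i + 1 < n}) (hA.union hbr)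
  have hB0 : ∀ a ∈ B, ∀ j, n ≤ j → a j = 0 := by
    intro a ha j hj
    rcases hel a ha with (h | ⟨i, hi, rfl⟩) | h
    · exact hA0 a h j hj
    · simp only [Set.mem_ofPred_eq] at hi
      simp only [braidVec]
      rw [if_neg (by omega), if_neg (by omega)]
    · exact h j hj
  obtain ⟨μ, hμ0, hμ1, hμ⟩ := exists_pos_lower {x | ∃ a ∈ B, ∃ i, a i ≠ 0 ∧ x = |a i|}
    (by
      apply ((hB.prod (Set.finite_Iio n)).image (fun q : (ℕ → ℝ) × ℕ => |q.1 q.2|)).subset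
      rintro x ⟨a, ha, i, hi, rfl⟩
      refine ⟨(a, i), ⟨ha, ?_⟩, rfl⟩
      by_contra h
      exact hi (hB0 a ha i (not_lt.1 h)))
    (by rintro x ⟨a, ha, i, hi, rfl⟩; exact abs_pos.2 hi)
  obtain ⟨γ, L, h1, h2, h3, h4⟩ := exists_gamma n (K0 := max K0 2) hμ0 hμ1 (le_max_right _ _)
  refine ⟨⟨n, B, μ, γ, L, max (48 * (n : ℝ) + 1) (δ + 1), hμ0, hμ1, h2, h3, h4, le_max_left _ _, hcl,
    fun a ha i hi => hμ _ ⟨a, ha, i, hi, rfl⟩, fun i hi => hAB (Or.inr ⟨i, hi, rfl⟩)⟩, rfl,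
    Set.subset_union_left.trans hAB, (le_max_left _ _).trans h1, ?_⟩
  exact lt_of_lt_of_le (by linarith) (le_max_right _ _)

namespace Par

variable (p : Par)

lemma Emax_pos : 0 < p.Emax p.n := (p.E_pos (fun _ => 0) _).trans_le (p.E_le_Emax _ _)

lemma GG_ge (κ : ℕ → ℤ) {j : ℕ} (hj : j < p.n) :
    Real.exp ((κ j : ℝ) - (p.Emax p.n + 2)) ≤ GG (p.PP κ j) (p.DD κ j) (κ j) := by
  refine le_trans ?_ (GG_lower (p.sep κ hj) (p.one_le_DD κ j) (κ j))
  apply Real.exp_le_exp.2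
  have := p.DD_le_Emax κ hj
  linarith

lemma wv_close (κ : ℕ → ℤ) {j : ℕ} (hj : j < p.n) : |p.wv κ j - κ j| ≤ p.Emax p.n := by
  have h1 := rho_close (P := p.PP κ j) (p.one_le_DD κ j) (κ j)
  have h2 := p.DD_le_Emax κ hj
  have h3 := p.one_le_DD κ j
  rw [abs_sub_comm]
  unfold wv
  linarith

lemma index_bound (r R θ : ℝ) (hr : 0 < r) :
    ∃ B : ℤ, ∀ (κ : ℕ → ℤ) (y : ℕ → ℝ), (∀ i < p.n, r ≤ y i ∧ y i ≤ R) → θ ≤ p.val κ y →
      ∀ j < p.n, -B ≤ κ j ∧ κ j ≤ B := by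
  set M := p.Emax p.n with hM
  have hM0 : 0 < M := p.Emax_pos
  set R' := max R 0 with hR'
  have hR0 : 0 ≤ R' := le_max_right _ _
  set B0 := (R' + 1) * (M + (M + 2) + Real.log (R' + 1)) with hB0
  have hlog : 0 ≤ Real.log (R' + 1) := Real.log_nonneg (by linarith)
  have hB00 : 0 ≤ B0 := by positivity
  set s := min r 1 with hs
  have hs0 : 0 < s := lt_min hr one_pos
  have term : ∀ (κ : ℕ → ℤ) (y : ℕ → ℝ), (∀ i < p.n, r ≤ y i ∧ y i ≤ R) → ∀ j < p.n,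
      p.wv κ j * y j - GG (p.PP κ j) (p.DD κ j) (κ j) ≤ B0 - s * |κ j + M| := by
    intro κ y hy j hj
    have h1 := p.GG_ge κ hj
    have h2 := abs_le.1 (p.wv_close κ hj)
    obtain ⟨h3, h4⟩ := hy j hj
    have h5 : y j ≤ R' := h4.trans (le_max_left _ _)
    have h6 : p.wv κ j * y j ≤ (κ j + M) * y j :=
      mul_le_mul_of_nonneg_right (by linarith) (by linarith)
    have h7 : s ≤ r := min_le_left _ _
    have h8 : s ≤ 1 := min_le_right _ _
    rcases le_total 0 ((κ j : ℝ) + M) with h | h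
    · rw [abs_of_nonneg h]
      have h9 : (R' + 1) * ((κ j : ℝ) - (M + 2) - Real.log (R' + 1)) ≤
          Real.exp ((κ j : ℝ) - (M + 2)) := by
        have e : Real.exp ((κ j : ℝ) - (M + 2)) =
            (R' + 1) * Real.exp ((κ j : ℝ) - (M + 2) - Real.log (R' + 1)) := by
          rw [Real.exp_sub _ (Real.log _), Real.exp_log (by linarith)]; field_simp
        rw [e]
        apply mul_le_mul_of_nonneg_left _ (by linarith)
        have := Real.add_one_le_exp ((κ j : ℝ) - (M + 2) - Real.log (R' + 1))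
        linarith
      have h10 : (κ j + M) * y j ≤ (κ j + M) * R' := mul_le_mul_of_nonneg_left h5 h
      have h11 : s * (κ j + M) ≤ 1 * (κ j + M) := mul_le_mul_of_nonneg_right h8 h
      nlinarith
    · rw [abs_of_nonpos h]
      have h10 : (κ j + M) * y j ≤ (κ j + M) * s := mul_le_mul_of_nonpos_left (by linarith) h
      have := Real.exp_pos ((κ j : ℝ) - (M + 2))
      nlinarith
  refine ⟨⌈(p.n * B0 - θ) / s + M⌉, fun κ y hy hθ j hj => ?_⟩
  have h1 : p.val κ y ≤ ∑ i ∈ range p.n, (B0 - s * |κ i + M|) := by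
    unfold val dot
    rw [g_eq_sum, ← sum_sub_distrib]
    exact sum_le_sum fun i hi => term κ y hy i (mem_range.1 hi)
  rw [sum_sub_distrib, sum_const, card_range, nsmul_eq_mul] at h1
  have h2 : s * |κ j + M| ≤ ∑ i ∈ range p.n, s * |κ i + M| :=
    single_le_sum (f := fun i => s * |κ i + M|) (fun i _ => by positivity) (mem_range.2 hj)
  have h3 : |κ j + M| ≤ (p.n * B0 - θ) / s := by
    rw [le_div_iff₀ hs0]; linarith
  have h4 := Int.le_ceil ((p.n * B0 - θ) / s + M)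
  have h5 := abs_le.1 h3
  constructor
  · have : ((-⌈(p.n * B0 - θ) / s + M⌉ : ℤ) : ℝ) ≤ κ j := by push_cast; linarith
    exact_mod_cast this
  · have : (κ j : ℝ) ≤ (⌈(p.n * B0 - θ) / s + M⌉ : ℤ) := by linarith
    exact_mod_cast this

end Par

/-- extension by zero -/
def ext0 {α : Type} [Zero α] {m : ℕ} (y : Fin m → α) : ℕ → α :=
  fun i => if h : i < m then y ⟨i, h⟩ else 0

lemma ext0_val {α : Type} [Zero α] {m : ℕ} (y : Fin m → α) (i : Fin m) : ext0 y i = y i := by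
  simp [ext0]

lemma ext0_of_lt {α : Type} [Zero α] {m : ℕ} (y : Fin m → α) {i : ℕ} (hi : i < m) :
    ext0 y i = y ⟨i, hi⟩ := by
  simp [ext0, hi]

lemma dot_eq (m : ℕ) (a w : ℕ → ℝ) :
    dot m a w = (fun i : Fin m => a i) ⬝ᵥ (fun i : Fin m => w i) := by
  unfold dot dotProduct
  rw [Finset.sum_range]

theorem key (m : ℕ) (hm : 0 < m) (A : Set (Fin m → ℝ)) (hA : A.Finite) (δ : ℝ) :
    ∃ (W : Set ((Fin m → ℝ) × ℝ)) (C : ℝ), 0 < C ∧
      (∀ p ∈ W, Antitone p.1) ∧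
      (∀ p ∈ W, Real.exp (p.1 ⟨0, hm⟩ - C) ≤ p.2) ∧
      (∀ r R θ : ℝ, 0 < r →
        {p ∈ W | ∃ y : Fin m → ℝ, (∀ i, r ≤ y i ∧ y i ≤ R) ∧ θ ≤ p.1 ⬝ᵥ y - p.2}.Finite) ∧
      (∀ t : ℤ, ∃ p ∈ W, ∃ q : ℝ, (∀ i, p.1 i = q) ∧ |q - t| ≤ C ∧ p.2 ≤ C * Real.exp t) ∧
      (∀ p ∈ W, ∀ y : Fin m → ℝ, (∀ i, 0 < y i) → Antitone y →
        (∀ p' ∈ W, p'.1 ⟨0, hm⟩ ≤ p.1 ⟨0, hm⟩ + C → p'.1 ⬝ᵥ y - p'.2 ≤ p.1 ⬝ᵥ y - p.2) →
        (∀ i, |Real.log (y i) - p.1 i| ≤ C) ∧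
          ∀ a ∈ A, 0 < a ⬝ᵥ p.1 → δ < a ⬝ᵥ fun i => Real.log (y i)) := by
  obtain ⟨N, hN⟩ : ∃ N : ℝ, ∀ a ∈ A, ∑ i, |a i| ≤ N := by
    obtain ⟨N, hN⟩ := (hA.image (fun a => ∑ i, |a i|)).bddAbove
    exact ⟨N, fun a ha => hN ⟨a, ha, rfl⟩⟩
  obtain ⟨p, rfl, hAp, hγ, hδ⟩ := exists_par m (ext0 '' A) (hA.image _)
    (by
      rintro _ ⟨a, _, rfl⟩ j hj
      simp [ext0, not_lt.2 hj]) (N + 1) δ
  let Φ : (ℕ → ℤ) → (Fin p.n → ℝ) × ℝ := fun κ => (fun i => p.wv κ i, (p.st κ p.n).g)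
  have hval : ∀ κ (y : Fin p.n → ℝ), p.val κ (ext0 y) = (Φ κ).1 ⬝ᵥ y - (Φ κ).2 := by
    intro κ y
    unfold Par.val
    rw [dot_eq]
    simp only [ext0_val]
    rfl
  have hM := p.Emax_pos
  have hD0 : ∀ κ, 2 * (p.L 0 * p.E0) ≤ p.Emax p.n := fun κ : ℕ → ℤ => p.DD_le_Emax κ hm
  have hD0' := hD0 (fun _ => 0)
  refine ⟨Φ '' {κ | p.Valid κ}, 2 * p.Emax p.n + 3, by linarith, ?_, ?_, ?_, ?_, ?_⟩
  · rintro _ ⟨κ, hκ, rfl⟩ i j hij
    exact Par.Valid.anti hκ hij j.2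
  · rintro _ ⟨κ, hκ, rfl⟩
    have h1 := p.GG_ge κ hm
    have h2 : (p.st κ (0 + 1)).g ≤ (p.st κ p.n).g := p.g_le κ hm le_rfl
    rw [p.st_succ_g] at h2
    have h3 : (p.st κ 0).g = 0 := rfl
    have h4 := abs_le.1 (p.wv_close κ hm)
    have h5 : Real.exp (p.wv κ 0 - (2 * p.Emax p.n + 3)) ≤ Real.exp ((κ 0 : ℝ) - (p.Emax p.n + 2)) :=
      Real.exp_le_exp.2 (by linarith)
    change Real.exp (p.wv κ 0 - _) ≤ (p.st κ p.n).g
    linarith
  · intro r R θ hr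
    obtain ⟨B, hB⟩ := p.index_bound r R θ hr
    apply ((Set.finite_Icc (fun _ : Fin p.n => -B) (fun _ => B)).image (fun κ => Φ (ext0 κ))).subset
    rintro _ ⟨⟨κ, hκ, rfl⟩, y, hy, hθ⟩
    have h1 := hB κ (ext0 y) (fun i hi => by rw [ext0_of_lt y hi]; exact hy _) (by rw [hval]; exact hθ)
    refine ⟨fun i => κ i, ⟨fun i => (h1 i i.2).1, fun i => (h1 i i.2).2⟩, ?_⟩
    have hag : ∀ j < p.n, ext0 (fun i : Fin p.n => κ i) j = κ j := fun j hj => ext0_of_lt _ hj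
    simp only [Φ]
    rw [p.st_congr hag]
    congr 1
    funext i
    exact p.wv_congr (fun j hj => hag j (lt_of_le_of_lt hj i.2))
  · intro t
    obtain ⟨κ, h1, h2, h3⟩ := p.exists_tie_ext (fun _ => t) hm
    refine ⟨Φ κ, ⟨κ, fun i hi => ?_, rfl⟩, p.wv (fun _ => t) 0, fun i => h2 i (Nat.zero_le _) i.2, ?_, ?_⟩
    · rw [h2 _ (Nat.zero_le _) hi, h2 i (Nat.zero_le _) (by omega)]
    · have := p.wv_close (fun _ => t) hm
      linarith
    · rw [p.st_succ_g] at h3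
      have h4 : (p.st (fun _ => t) 0).g = 0 := rfl
      have h5 := GG_le (P := p.PP (fun _ => t) 0) (p.one_le_DD (fun _ => t) 0) t
      have h6 := p.DD_le_Emax (fun _ => t) hm
      have h7 : Real.exp ((t : ℝ) - 1) ≤ Real.exp t := Real.exp_le_exp.2 (by linarith)
      have h8 := Real.exp_pos (t : ℝ)
      have h9 := Real.exp_pos ((t : ℝ) - 1)
      have h10 := p.one_le_DD (fun _ => t) 0
      have h11 : 2 * (2 * p.DD (fun _ => t) 0 + 1) * Real.exp ((t : ℝ) - 1) ≤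
          2 * (p.Emax p.n + 1) * Real.exp t :=
        mul_le_mul (by linarith) h7 h9.le (by linarith)
      change (p.st κ p.n).g ≤ _
      nlinarith
  · rintro _ ⟨κ, hκ, rfl⟩ y hy hanti hmax
    have hact : ∀ i : Fin p.n, |Real.log (y i) - p.wv κ i| ≤ (p.st κ p.n).E := by
      intro i
      have := p.active hκ (y := ext0 y) (fun i hi => by rw [ext0_of_lt y hi]; exact hy _)
        (fun i j hij hj => by
          rw [ext0_of_lt y hj, ext0_of_lt y (lt_of_le_of_lt hij hj)]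
          exact hanti (Fin.mk_le_mk.2 hij))
        (fun κ' hκ' h => by
          rw [hval, hval]
          apply hmax _ ⟨κ', hκ', rfl⟩
          change p.wv κ' 0 ≤ p.wv κ 0 + _
          unfold Par.Lam at h
          linarith) i.2
      rw [ext0_val] at this
      exact this.trans (p.E_mono κ (Nat.succ_le_of_lt i.2))
    refine ⟨fun i => (hact i).trans ((p.E_le_Emax κ _).trans (by linarith)), fun a ha hpos => ?_⟩
    have hg := p.gap κ le_rfl (ext0 a) (hAp ⟨a, ha, rfl⟩) (fun j hj => by simp [ext0, not_lt.2 hj])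
    rw [dot_eq] at hg
    simp only [ext0_val] at hg
    change 0 < a ⬝ᵥ (fun i : Fin p.n => p.wv κ i) at hpos
    have hg' := hg.resolve_left hpos.ne'
    rw [abs_of_pos hpos] at hg'
    have hE := p.E0_le κ p.n
    have hE0 := p.E_pos κ p.n
    have h1 : a ⬝ᵥ (fun i : Fin p.n => p.wv κ i) - a ⬝ᵥ (fun i => Real.log (y i)) ≤
        (∑ i, |a i|) * (p.st κ p.n).E := by
      unfold dotProduct
      rw [← sum_sub_distrib, sum_mul]
      apply sum_le_sum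
      intro i _
      rw [← mul_sub]
      refine (le_abs_self _).trans ?_
      rw [abs_mul, abs_sub_comm]
      exact mul_le_mul_of_nonneg_left (hact i) (abs_nonneg _)
    have h2 := mul_le_mul_of_nonneg_right (hN a ha) hE0.le
    have h3 := mul_le_mul_of_nonneg_right hγ hE0.le
    nlinarith

end Crest.Agent.R092
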