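import Mathlib

set_option autoImplicit false

/-! One-dimensional building block: a rounding map `rho` of the integers that snaps to a
well separated set `P` of pivots, and the convex cost `GG` with thresholds at the integers. -/

namespace Crest.Agent.R092

open Real

open Classical in
/-- snap the integer `k` to a pivot at distance `< D`, if there is one -/
noncomputable def rho (P : Set ℝ) (D : ℝ) (k : ℤ) : ℝ :=
  if h : ∃ c ∈ P, |(k : ℝ) - c| < D then h.choose else k

/-- the cost of the integer `k` -/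
noncomputable def GG (P : Set ℝ) (D : ℝ) (k : ℤ) : ℝ :=
  ∑' m : ℕ, (rho P D (k - m) - rho P D (k - m - 1)) * Real.exp ((k : ℝ) - m - 1)

/-- the pivots are `3 D`-separated -/
def Sep (P : Set ℝ) (D : ℝ) : Prop := ∀ c ∈ P, ∀ c' ∈ P, c = c' ∨ 3 * D ≤ |c - c'|

variable {P : Set ℝ} {D : ℝ}

lemma rho_cases (P : Set ℝ) (D : ℝ) (k : ℤ) :
    (rho P D k ∈ P ∧ |(k : ℝ) - rho P D k| < D) ∨
      (rho P D k = k ∧ ∀ c ∈ P, D ≤ |(k : ℝ) - c|) := by
  unfold rho
  split_ifs with h
  · left; exact h.choose_spec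
  · right
    refine ⟨rfl, fun c hc => ?_⟩
    by_contra hlt
    exact h ⟨c, hc, lt_of_not_ge hlt⟩

lemma rho_close (hD : 1 ≤ D) (k : ℤ) : |(k : ℝ) - rho P D k| < D := by
  rcases rho_cases P D k with h | h
  · exact h.2
  · rw [h.1]; simp; linarith

lemma rho_of_notMem {k : ℤ} (h : rho P D k ∉ P) :
    rho P D k = k ∧ ∀ c ∈ P, D ≤ |(k : ℝ) - c| := by
  rcases rho_cases P D k with h' | h'
  · exact absurd h'.1 h
  · exact h'

lemma rho_eq (hS : Sep P D) (hD : 1 ≤ D) {k : ℤ} {c : ℝ} (hc : c ∈ P)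
    (hk : |(k : ℝ) - c| < D) : rho P D k = c := by
  rcases rho_cases P D k with h | h
  · rcases hS _ h.1 _ hc with h' | h'
    · exact h'
    · exfalso
      have h1 := abs_lt.1 h.2
      have h2 := abs_lt.1 hk
      rcases abs_cases (rho P D k - c) with h3 | h3 <;> linarith [h3.1]
  · exact absurd (h.2 c hc) (not_le.2 hk)

lemma rho_le_succ (hS : Sep P D) (hD : 1 ≤ D) (k : ℤ) : rho P D k ≤ rho P D (k + 1) := by
  rcases rho_cases P D k with h | h <;> rcases rho_cases P D (k + 1) with h' | h'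
  · rcases hS _ h.1 _ h'.1 with h3 | h3
    · exact h3.le
    · have h1 := abs_lt.1 h.2
      have h2 := abs_lt.1 h'.2
      push_cast at h2
      rcases abs_cases (rho P D k - rho P D (k + 1)) with h4 | h4 <;> linarith [h4.1]
  · have h1 := abs_lt.1 h.2
    have h2 := h'.2 _ h.1
    rw [h'.1]
    push_cast at h2 ⊢
    rcases abs_cases ((k : ℝ) + 1 - rho P D k) with h4 | h4 <;> linarith [h4.1]
  · have h1 := abs_lt.1 h'.2
    have h2 := h.2 _ h'.1
    rw [h.1]
    push_cast at h1
    rcases abs_cases ((k : ℝ) - rho P D (k + 1)) with h4 | h4 <;> linarith [h4.1]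
  · rw [h.1, h'.1]; push_cast; linarith

lemma rho_mono (hS : Sep P D) (hD : 1 ≤ D) : Monotone (rho P D) :=
  monotone_int_of_le_succ (rho_le_succ hS hD)

lemma rho_step_le (hD : 1 ≤ D) (k : ℤ) : |rho P D k - rho P D (k - 1)| ≤ 2 * D + 1 := by
  have h1 := abs_lt.1 (rho_close (P := P) hD k)
  have h2 := abs_lt.1 (rho_close (P := P) hD (k - 1))
  push_cast at h2
  rw [abs_le]; constructor <;> linarith

lemma exp_neg_one_le_half : Real.exp (-1) ≤ 1 / 2 := by
  have h : (2 : ℝ) ≤ Real.exp 1 := by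
    have := Real.add_one_le_exp (1 : ℝ); linarith
  rw [Real.exp_neg, inv_eq_one_div]
  exact one_div_le_one_div_of_le (by norm_num) h

lemma GG_term_le (hD : 1 ≤ D) (k : ℤ) (m : ℕ) :
    |(rho P D (k - m) - rho P D (k - m - 1)) * Real.exp ((k : ℝ) - m - 1)| ≤
      ((2 * D + 1) * Real.exp ((k : ℝ) - 1)) * (1 / 2) ^ m := by
  rw [abs_mul, abs_of_pos (Real.exp_pos _), mul_assoc]
  apply mul_le_mul (rho_step_le hD _) _ (Real.exp_pos _).le (by linarith)
  have : (k : ℝ) - m - 1 = (k - 1) + m * (-1) := by ring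
  rw [this, Real.exp_add, Real.exp_nat_mul]
  apply mul_le_mul_of_nonneg_left _ (Real.exp_pos _).le
  exact pow_le_pow_left₀ (Real.exp_pos _).le exp_neg_one_le_half m

lemma GG_summable (hD : 1 ≤ D) (k : ℤ) :
    Summable fun m : ℕ => (rho P D (k - m) - rho P D (k - m - 1)) * Real.exp ((k : ℝ) - m - 1) := by
  apply Summable.of_norm_bounded (g := fun m : ℕ => ((2 * D + 1) * Real.exp ((k : ℝ) - 1)) * (1 / 2) ^ m)
  · exact summable_geometric_two.mul_left _
  · intro m; exact GG_term_le hD k m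

lemma GG_le (hD : 1 ≤ D) (k : ℤ) : GG P D k ≤ 2 * (2 * D + 1) * Real.exp ((k : ℝ) - 1) := by
  have h1 : GG P D k ≤ ∑' m : ℕ, ((2 * D + 1) * Real.exp ((k : ℝ) - 1)) * (1 / 2) ^ m := by
    apply Summable.tsum_le_tsum _ (GG_summable hD k) (summable_geometric_two.mul_left _)
    intro m; exact (le_abs_self _).trans (GG_term_le hD k m)
  rw [tsum_mul_left, tsum_geometric_two] at h1
  linarith

lemma GG_nonneg (hS : Sep P D) (hD : 1 ≤ D) (k : ℤ) : 0 ≤ GG P D k := by
  apply tsum_nonneg
  intro m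
  apply mul_nonneg _ (Real.exp_pos _).le
  have := rho_mono hS hD (show k - m - 1 ≤ k - m by omega)
  linarith

lemma GG_succ (hD : 1 ≤ D) (k : ℤ) :
    GG P D (k + 1) = GG P D k + (rho P D (k + 1) - rho P D k) * Real.exp k := by
  unfold GG
  rw [(GG_summable hD (k + 1)).tsum_eq_zero_add, add_comm]
  congr 1
  · apply tsum_congr
    intro m
    have e1 : k + 1 - ((m + 1 : ℕ) : ℤ) = k - m := by push_cast; ring
    rw [e1]
    congr 2
    push_cast; ring
  · simp

lemma GG_chord (hS : Sep P D) (hD : 1 ≤ D) {j k : ℤ} (h : j ≤ k) :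
    (rho P D k - rho P D j) * Real.exp j ≤ GG P D k - GG P D j ∧
      GG P D k - GG P D j ≤ (rho P D k - rho P D j) * Real.exp k := by
  induction k, h using Int.leInduction with
  | base => simp
  | succ k hk ih =>
    rw [GG_succ hD]
    have h1 := rho_le_succ hS hD k
    have h2 := rho_mono hS hD hk
    have h3 : Real.exp j ≤ Real.exp k := Real.exp_le_exp.2 (by exact_mod_cast hk)
    have h4 : Real.exp k ≤ Real.exp ((k + 1 : ℤ) : ℝ) := Real.exp_le_exp.2 (by push_cast; linarith)
    constructor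
    · nlinarith [ih.1, mul_le_mul_of_nonneg_left h3 (sub_nonneg.2 h1)]
    · nlinarith [ih.2, mul_le_mul_of_nonneg_left h4 (sub_nonneg.2 h1),
        mul_le_mul_of_nonneg_left h4 (sub_nonneg.2 h2)]

lemma GG_lower (hS : Sep P D) (hD : 1 ≤ D) (k : ℤ) :
    Real.exp ((k : ℝ) - 2 * D - 2) ≤ GG P D k := by
  set j : ℤ := ⌊(k : ℝ) - 2 * D - 1⌋ with hj
  have hj1 : (j : ℝ) ≤ k - 2 * D - 1 := Int.floor_le _
  have hj2 : (k : ℝ) - 2 * D - 1 < j + 1 := Int.lt_floor_add_one _
  have hjk : j ≤ k := by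
    have : (j : ℝ) ≤ k := by linarith
    exact_mod_cast this
  have h1 := (GG_chord hS hD hjk).1
  have h2 := GG_nonneg hS hD j
  have h3 := abs_lt.1 (rho_close (P := P) hD k)
  have h4 := abs_lt.1 (rho_close (P := P) hD j)
  have h5 : 1 ≤ rho P D k - rho P D j := by linarith
  have h6 : Real.exp ((k : ℝ) - 2 * D - 2) ≤ Real.exp j := Real.exp_le_exp.2 (by linarith)
  nlinarith [Real.exp_pos (j : ℝ)]

open Classical in
/-- the distance from `rho k` at which the neighbouring thresholds lie -/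
noncomputable def err (P : Set ℝ) (D : ℝ) (k : ℤ) : ℝ := if rho P D k ∈ P then D + 1 else 1

lemma exists_up (hS : Sep P D) (hD : 1 ≤ D) (k : ℤ) :
    ∃ k' : ℤ, k ≤ k' ∧ rho P D k + 1 ≤ rho P D k' ∧ (k' : ℝ) ≤ rho P D k + err P D k ∧
      ∀ c ∈ P, rho P D k < c → rho P D k' ≤ c := by
  have key : ∀ (k' : ℤ) (c : ℝ), c ∈ P → (k' : ℝ) ≤ c → rho P D k' ≤ c := by
    intro k' c hc hk'
    have h1 : k' ≤ ⌊c⌋ := Int.le_floor.2 hk'
    have h2 : rho P D ⌊c⌋ = c := by
      apply rho_eq hS hD hc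
      have := Int.floor_le c
      have := Int.lt_floor_add_one c
      rw [abs_lt]; constructor <;> linarith
    exact (rho_mono hS hD h1).trans h2.le
  unfold err
  split_ifs with h
  · have hk := abs_lt.1 (rho_close (P := P) hD k)
    set c := rho P D k with hc
    refine ⟨⌈c + D⌉, ?_, ?_, ?_, ?_⟩
    · have : (k : ℝ) ≤ ⌈c + D⌉ := by have := Int.le_ceil (c + D); linarith
      exact_mod_cast this
    · have h1 := Int.le_ceil (c + D)
      rcases rho_cases P D ⌈c + D⌉ with h2 | h2
      · have h3 := abs_lt.1 h2.2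
        rcases hS _ h2.1 _ h with h4 | h4
        · linarith
        · rcases abs_cases (rho P D ⌈c + D⌉ - c) with h5 | h5 <;> linarith [h5.1]
      · rw [h2.1]; linarith
    · have := Int.ceil_lt_add_one (c + D); linarith
    · intro c' hc' hlt
      apply key _ _ hc'
      have := Int.ceil_lt_add_one (c + D)
      rcases hS _ hc' _ h with h4 | h4
      · linarith
      · rw [abs_of_pos (by linarith)] at h4; linarith
  · obtain ⟨h1, h2⟩ := rho_of_notMem h
    refine ⟨k + 1, by omega, ?_, ?_, ?_⟩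
    · rw [h1]
      rcases rho_cases P D (k + 1) with h3 | h3
      · have h4 := abs_lt.1 h3.2
        have h5 := h2 _ h3.1
        push_cast at h4
        rcases abs_cases ((k : ℝ) - rho P D (k + 1)) with h6 | h6 <;> linarith [h6.1]
      · rw [h3.1]; push_cast; linarith
    · rw [h1]; push_cast; linarith
    · intro c hc hlt
      apply key _ _ hc
      have h5 := h2 _ hc
      rw [h1] at hlt
      rw [abs_of_neg (by linarith)] at h5
      push_cast; linarith

lemma exists_down (hS : Sep P D) (hD : 1 ≤ D) (k : ℤ) :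
    ∃ k' : ℤ, k' ≤ k ∧ rho P D k' + 1 ≤ rho P D k ∧ rho P D k - err P D k ≤ k' := by
  unfold err
  split_ifs with h
  · have hk := abs_lt.1 (rho_close (P := P) hD k)
    set c := rho P D k with hc
    refine ⟨⌊c - D⌋, ?_, ?_, ?_⟩
    · have : ((⌊c - D⌋ : ℤ) : ℝ) ≤ k := by have := Int.floor_le (c - D); linarith
      exact_mod_cast this
    · have h1 := Int.floor_le (c - D)
      rcases rho_cases P D ⌊c - D⌋ with h2 | h2
      · have h3 := abs_lt.1 h2.2
        rcases hS _ h2.1 _ h with h4 | h4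
        · linarith
        · rcases abs_cases (rho P D ⌊c - D⌋ - c) with h5 | h5 <;> linarith [h5.1]
      · rw [h2.1]; linarith
    · have := Int.lt_floor_add_one (c - D); linarith
  · obtain ⟨h1, h2⟩ := rho_of_notMem h
    refine ⟨k - 1, by omega, ?_, ?_⟩
    · rw [h1]
      rcases rho_cases P D (k - 1) with h3 | h3
      · have h4 := abs_lt.1 h3.2
        have h5 := h2 _ h3.1
        push_cast at h4
        rcases abs_cases ((k : ℝ) - rho P D (k - 1)) with h6 | h6 <;> linarith [h6.1]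
      · rw [h3.1]; push_cast; linarith
    · rw [h1]; push_cast; linarith

/-- a cheap index that snaps to the pivot `c` -/
lemma exists_tie (hS : Sep P D) (hD : 1 ≤ D) {c : ℝ} (hc : c ∈ P) :
    ∃ k : ℤ, rho P D k = c ∧ GG P D k ≤ 2 * (2 * D + 1) * Real.exp (c - D) := by
  refine ⟨⌊c - D⌋ + 1, ?_, ?_⟩
  · apply rho_eq hS hD hc
    have := Int.floor_le (c - D)
    have := Int.lt_floor_add_one (c - D)
    push_cast
    rw [abs_lt]; constructor <;> linarith
  · refine (GG_le hD _).trans ?_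
    apply mul_le_mul_of_nonneg_left _ (by linarith)
    apply Real.exp_le_exp.2
    have := Int.floor_le (c - D)
    push_cast; linarith

end Crest.Agent.R092
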