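import Mathlib
import Crest.Prelude.Def_MassAction

set_option autoImplicit false

/-! The sign lemma: a slope that orders the source complexes like the monomials do (with a
margin) is a descent direction for a weakly reversible mass-action field. -/

namespace Crest.Agent.R092

open Real Finset Crest.AnalysisR.MassAction

/-- a complex as a real vector -/
def cv {d : ℕ} (y : Fin d → ℕ) : Fin d → ℝ := fun i => (y i : ℝ)

lemma reactionVector_eq {d : ℕ} (r : (Fin d → ℕ) × (Fin d → ℕ)) :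
    reactionVector r = cv r.2 - cv r.1 := rfl

/-- differences of source complexes -/
def diffs {d : ℕ} (R : Network d) : Set (Fin d → ℝ) :=
  {a | ∃ r ∈ R, ∃ r' ∈ R, a = cv r.1 - cv r'.1}

lemma diffs_finite {d : ℕ} (R : Network d) : (diffs R).Finite := by
  apply ((R.finite_toSet.prod R.finite_toSet).image (fun q => cv q.1.1 - cv q.2.1)).subset
  rintro a ⟨r, hr, r', hr', rfl⟩
  exact ⟨(r, r'), ⟨hr, hr'⟩, rfl⟩

lemma path_bound {d : ℕ} (R : Network d) {p y : Fin d → ℕ}
    (h : Relation.ReflTransGen (fun a b => (a, b) ∈ R) p y) :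
    ∃ L : ℕ, ∀ (φ : (Fin d → ℕ) → ℝ) (M : ℝ), 0 ≤ M →
      (∀ e ∈ R, φ y < φ e.1 → φ e.1 - φ e.2 ≤ M) → φ p - φ y ≤ L * M := by
  induction h using Relation.ReflTransGen.head_induction_on with
  | refl => exact ⟨0, fun φ M _ _ => by simp⟩
  | @head a c hac _ ih =>
    obtain ⟨L, hL⟩ := ih
    refine ⟨L + 1, fun φ M hM h => ?_⟩
    have h1 := hL φ M hM h
    push_cast
    by_cases h2 : φ y < φ a
    · have h3 := h (a, c) hac h2
      simp only at h3
      linarith
    · have : 0 ≤ ((L : ℝ) + 1) * M := by positivity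
      linarith

lemma monomial_eq {d : ℕ} (x : Fin d → ℝ) (hx : ∀ i, 0 < x i) (y : Fin d → ℕ) :
    ∏ i, x i ^ (y i) = Real.exp (cv y ⬝ᵥ fun i => Real.log (x i)) := by
  unfold dotProduct
  rw [Real.exp_sum]
  apply prod_congr rfl
  intro i _
  simp only [cv]
  rw [Real.exp_nat_mul, Real.exp_log (hx i)]

theorem sign_lemma {d : ℕ} (R : Network d) (hR : IsWeaklyReversible R)
    (k : (Fin d → ℕ) × (Fin d → ℕ) → ℝ) (hk : ∀ r ∈ R, 0 < k r) :
    ∃ δ : ℝ, ∀ x u : Fin d → ℝ, (∀ i, 0 < x i) →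
      (∀ a ∈ diffs R, 0 < a ⬝ᵥ u → δ < a ⬝ᵥ fun i => Real.log (x i)) →
      (∃ r ∈ R, u ⬝ᵥ reactionVector r ≠ 0) → u ⬝ᵥ field R k x < 0 := by
  classical
  have hL : ∀ r ∈ R, ∃ L : ℕ, ∀ (φ : (Fin d → ℕ) → ℝ) (M : ℝ), 0 ≤ M →
      (∀ e ∈ R, φ r.1 < φ e.1 → φ e.1 - φ e.2 ≤ M) → φ r.2 - φ r.1 ≤ L * M :=
    fun r hr => path_bound R (hR r hr)
  choose! L hL using hL
  set Q : ℝ := ∑ r ∈ R, ∑ e ∈ R, (L r : ℝ) * (k r / k e) with hQ
  have hQ0 : 0 ≤ Q := sum_nonneg fun r hr => sum_nonneg fun e he => by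
    have := hk r hr; have := hk e he; positivity
  refine ⟨Real.log (2 * Q + 1), fun x u hx hsign hne => ?_⟩
  set φ : (Fin d → ℕ) → ℝ := fun y => cv y ⬝ᵥ u with hφ
  set m : (Fin d → ℕ) → ℝ := fun y => ∏ i, x i ^ (y i) with hm
  have hm0 : ∀ y, 0 < m y := fun y => prod_pos fun i _ => pow_pos (hx i) _
  have hrv : ∀ r, u ⬝ᵥ reactionVector r = φ r.2 - φ r.1 := by
    intro r
    rw [reactionVector_eq, dotProduct_sub, dotProduct_comm u, dotProduct_comm u]
  have hfield : u ⬝ᵥ field R k x = ∑ r ∈ R, k r * m r.1 * (φ r.2 - φ r.1) := by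
    unfold field
    rw [dotProduct_sum]
    apply sum_congr rfl
    intro r _
    rw [dotProduct_smul, smul_eq_mul, hrv]
  set loss : ℝ := ∑ e ∈ R, k e * m e.1 * max (φ e.1 - φ e.2) 0 with hloss
  have hterm0 : ∀ e ∈ R, 0 ≤ k e * m e.1 * max (φ e.1 - φ e.2) 0 := fun e he => by
    have := hk e he; have := hm0 e.1; positivity
  have hloss0 : 0 ≤ loss := sum_nonneg hterm0
  -- the gain of one reaction
  have hgain : ∀ r ∈ R, k r * m r.1 * max (φ r.2 - φ r.1) 0 ≤
      (∑ e ∈ R, (L r : ℝ) * (k r / k e)) * (loss / (2 * Q + 1)) := by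
    intro r hr
    have hkr := hk r hr
    have hmr := hm0 r.1
    set S : ℝ := ∑ e ∈ R, (k e)⁻¹ with hS
    have hS0 : 0 ≤ S := sum_nonneg fun e he => (inv_pos.2 (hk e he)).le
    have h1 := hL r hr φ (S * (loss / (2 * Q + 1)) / m r.1) (by positivity) (fun e he hlt => by
      have hke := hk e he
      have hme := hm0 e.1
      have h2 := hsign _ ⟨e, he, r, hr, rfl⟩ (by rw [sub_dotProduct]; exact sub_pos.2 hlt)
      rw [sub_dotProduct] at h2
      have h3 : (2 * Q + 1) * m r.1 ≤ m e.1 := by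
        simp only [hm]
        rw [monomial_eq x hx, monomial_eq x hx, ← Real.exp_log (by linarith : 0 < 2 * Q + 1),
          ← Real.exp_add]
        apply Real.exp_le_exp.2; linarith
      have h4 : k e * m e.1 * max (φ e.1 - φ e.2) 0 ≤ loss := single_le_sum hterm0 he
      have h5 : (k e)⁻¹ ≤ S := single_le_sum (f := fun e => (k e)⁻¹)
        (fun e he => (inv_pos.2 (hk e he)).le) he
      refine (le_max_left _ 0).trans ?_
      set t := max (φ e.1 - φ e.2) 0
      have ht : 0 ≤ t := le_max_right _ _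
      rw [le_div_iff₀ hmr]
      have h6 : t * m r.1 ≤ (k e)⁻¹ * (loss / (2 * Q + 1)) := by
        rw [← div_eq_inv_mul, le_div_iff₀ hke, le_div_iff₀ (by linarith)]
        have : k e * t * ((2 * Q + 1) * m r.1) ≤ k e * t * m e.1 :=
          mul_le_mul_of_nonneg_left h3 (by positivity)
        nlinarith
      exact h6.trans (mul_le_mul_of_nonneg_right h5 (by positivity)))
    have h7 : max (φ r.2 - φ r.1) 0 ≤ L r * (S * (loss / (2 * Q + 1)) / m r.1) :=
      max_le h1 (by positivity)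
    have h8 : ∑ e ∈ R, (L r : ℝ) * (k r / k e) = L r * k r * S := by
      rw [hS, mul_sum]; apply sum_congr rfl; intro e _; rw [div_eq_mul_inv]; ring
    rw [h8]
    calc k r * m r.1 * max (φ r.2 - φ r.1) 0
        ≤ k r * m r.1 * (L r * (S * (loss / (2 * Q + 1)) / m r.1)) :=
          mul_le_mul_of_nonneg_left h7 (by positivity)
      _ = _ := by field_simp
  set gain : ℝ := ∑ r ∈ R, k r * m r.1 * max (φ r.2 - φ r.1) 0 with hgain'
  have hgl : gain ≤ Q * (loss / (2 * Q + 1)) := by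
    rw [hQ, sum_mul]; exact sum_le_sum hgain
  have hsplit : u ⬝ᵥ field R k x = gain - loss := by
    rw [hfield, hgain', hloss, ← sum_sub_distrib]
    apply sum_congr rfl
    intro r _
    rw [← mul_sub]
    congr 1
    rcases le_total (φ r.2) (φ r.1) with h | h
    · rw [max_eq_right (by linarith), max_eq_left (by linarith)]; ring
    · rw [max_eq_left (by linarith), max_eq_right (by linarith)]; ring
  have hhalf : Q * (loss / (2 * Q + 1)) ≤ loss / 2 := by
    rw [← mul_div_assoc, div_le_div_iff₀ (by linarith) (by norm_num)]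
    nlinarith
  have hpos : 0 < loss := by
    obtain ⟨r, hr, hne⟩ := hne
    rw [hrv] at hne
    have hkr := hk r hr
    have hmr := hm0 r.1
    rcases lt_or_gt_of_ne hne with h | h
    · have h4 : k r * m r.1 * max (φ r.1 - φ r.2) 0 ≤ loss := single_le_sum hterm0 hr
      have : 0 < max (φ r.1 - φ r.2) 0 := lt_max_of_lt_left (by linarith)
      exact lt_of_lt_of_le (by positivity) h4
    · have h4 : k r * m r.1 * max (φ r.2 - φ r.1) 0 ≤ gain :=
        single_le_sum (f := fun r => k r * m r.1 * max (φ r.2 - φ r.1) 0) (fun e he => by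
          have := hk e he; have := hm0 e.1; positivity) hr
      have : 0 < max (φ r.2 - φ r.1) 0 := lt_max_of_lt_left h
      have : 0 < k r * m r.1 * max (φ r.2 - φ r.1) 0 := by positivity
      linarith
  rw [hsplit]
  linarith

end Crest.Agent.R092
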