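import Crest.Agent.R092.Key
import Crest.Agent.R092.Sign
import Crest.Agent.R092.Dyn

set_option autoImplicit false

/-! The staged construction of the compact convex absorbing set. -/

namespace Crest.Agent.R092

open Filter Topology Crest.AnalysisR.MassAction

lemma exists_sort {m : ℕ} {w y : Fin m → ℝ} (hw : Antitone w)
    (h : ∀ i j, w j < w i → y j ≤ y i) :
    ∃ σ : Equiv.Perm (Fin m), w ∘ σ = w ∧ Antitone (y ∘ σ) := by
  let f : Fin m → ℝ ×ₗ ℝ := fun i => toLex (-w i, -y i)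
  have hm := Tuple.monotone_sort f
  set σ := Tuple.sort f
  have h1 : Monotone ((fun i => -w i) ∘ σ) := by
    intro i j hij
    have := hm hij
    simp only [Function.comp, f, Prod.Lex.toLex_le_toLex] at this
    rcases this with h | h
    · exact h.le
    · exact h.1.le
  have h2 : Monotone ((fun i => -w i) ∘ (1 : Equiv.Perm (Fin m))) := by
    intro i j hij
    simpa using hw hij
  have h3 := Tuple.unique_monotone h1 h2
  refine ⟨σ, ?_, ?_⟩
  · funext i
    have := congrFun h3 i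
    simpa using this
  · intro i j hij
    have := hm hij
    simp only [Function.comp, f, Prod.Lex.toLex_le_toLex] at this
    rcases this with h' | h'
    · exact h _ _ (by linarith)
    · simp only [Function.comp]; linarith [h'.2]

lemma monovary_of_swap {m : ℕ} {w y : Fin m → ℝ}
    (h : ∀ σ : Equiv.Perm (Fin m), w ⬝ᵥ (y ∘ σ) ≤ w ⬝ᵥ y) (i j : Fin m) (hij : w j < w i) :
    y j ≤ y i := by
  have hne : i ≠ j := by rintro rfl; exact lt_irrefl _ hij
  have h1 := h (Equiv.swap i j)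
  have h2 : w ⬝ᵥ y - w ⬝ᵥ (y ∘ Equiv.swap i j) = (w i - w j) * (y i - y j) := by
    unfold dotProduct
    rw [← Finset.sum_sub_distrib, Fintype.sum_eq_add i j hne]
    · simp; ring
    · intro k hk
      simp [Equiv.swap_apply_of_ne_of_ne hk.1 hk.2]
  have h3 : 0 ≤ (w i - w j) * (y i - y j) := by linarith
  have := nonneg_of_mul_nonneg_right (a := y i - y j) (b := w i - w j)
  by_contra hlt
  nlinarith

lemma dot_comp_perm {m : ℕ} (a b : Fin m → ℝ) (σ : Equiv.Perm (Fin m)) :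
    (a ∘ σ) ⬝ᵥ (b ∘ σ) = a ⬝ᵥ b := by
  unfold dotProduct
  exact Equiv.sum_comp σ (fun i => a i * b i)

lemma extend_dot {m d : ℕ} (e : Fin m ↪ Fin d) (w : Fin m → ℝ) (x : Fin d → ℝ) :
    Function.extend e w 0 ⬝ᵥ x = w ⬝ᵥ (x ∘ e) := by
  unfold dotProduct
  symm
  apply Fintype.sum_of_injective e e.injective
  · intro j hj
    rw [Function.extend_apply' _ _ _ hj]; simp
  · intro i
    rw [e.injective.extend_apply]; rfl

variable {d : ℕ}

theorem core (R : Network d) (hR : IsWeaklyReversible R)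
    (k : (Fin d → ℕ) × (Fin d → ℕ) → ℝ) (hk : ∀ r ∈ R, 0 < k r)
    (m : ℕ) (hm : 0 < m) (B : ℝ) (hB : 0 ≤ B) :
    ∃ (W : Set ((Fin m → ℝ) × ℝ)) (C : ℝ), 0 < C ∧
      (∀ p ∈ W, Antitone p.1) ∧
      (∀ p ∈ W, Real.exp (p.1 ⟨0, hm⟩ - C) ≤ p.2) ∧
      (∀ r R θ : ℝ, 0 < r →
        {p ∈ W | ∃ y : Fin m → ℝ, (∀ i, r ≤ y i ∧ y i ≤ R) ∧ θ ≤ p.1 ⬝ᵥ y - p.2}.Finite) ∧
      (∀ t : ℤ, ∃ p ∈ W, ∃ q : ℝ, (∀ i, p.1 i = q) ∧ |q - t| ≤ C ∧ p.2 ≤ C * Real.exp t) ∧
      (∀ p ∈ W, ∀ (e : Fin m ↪ Fin d) (x : Fin d → ℝ), (∀ i, 0 < x i) →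
        (∀ p' ∈ W, p'.1 ⟨0, hm⟩ ≤ p.1 ⟨0, hm⟩ + C → ∀ e' : Fin m ↪ Fin d,
          p'.1 ⬝ᵥ (x ∘ e') - p'.2 ≤ p.1 ⬝ᵥ (x ∘ e) - p.2) →
        (∀ i, Real.log (x (e i)) ≤ p.1 ⟨0, hm⟩ + C) ∧
          ((∀ j, j ∉ Set.range e → |Real.log (x j)| ≤ B) → ∀ c : Fin d → ℝ,
            x - c ∈ stoichSubspace R → p.1 ⬝ᵥ (c ∘ e) < p.1 ⬝ᵥ (x ∘ e) →
            Function.extend e p.1 0 ⬝ᵥ field R k x < 0)) := by
  obtain ⟨δ, hδ⟩ := sign_lemma R hR k hk
  obtain ⟨N, hN⟩ : ∃ N : ℝ, ∀ a ∈ diffs R, ∑ i, |a i| ≤ N := by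
    obtain ⟨N, hN⟩ := ((diffs_finite R).image (fun a => ∑ i, |a i|)).bddAbove
    exact ⟨N, fun a ha => hN ⟨a, ha, rfl⟩⟩
  have hfin : {b : Fin m → ℝ | ∃ a ∈ diffs R, ∃ e : Fin m ↪ Fin d, b = a ∘ e}.Finite := by
    apply (((diffs_finite R).prod (Set.finite_univ (α := Fin m ↪ Fin d))).image
      (fun q => q.1 ∘ q.2)).subset
    rintro b ⟨a, ha, e, rfl⟩
    exact ⟨(a, e), ⟨ha, trivial⟩, rfl⟩
  obtain ⟨W, C, hC, h1, h2, h3, h4, h5⟩ := key m hm _ hfin (δ + N * B)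
  refine ⟨W, C, hC, h1, h2, h3, h4, fun p hp e x hx hmax => ?_⟩
  obtain ⟨σ, hσ1, hσ2⟩ := exists_sort (y := x ∘ e) (h1 p hp) (monovary_of_swap fun σ => by
    have := hmax p hp (by linarith) (σ.toEmbedding.trans e)
    have e1 : x ∘ (σ.toEmbedding.trans e) = (x ∘ e) ∘ σ := rfl
    rw [e1] at this
    linarith)
  have hval : p.1 ⬝ᵥ ((x ∘ e) ∘ σ) = p.1 ⬝ᵥ (x ∘ e) := by
    conv_lhs => rw [← hσ1]
    exact dot_comp_perm _ _ σ
  obtain ⟨h6, h7⟩ := h5 p hp ((x ∘ e) ∘ σ) (fun i => hx _) hσ2 (fun p' hp' hle => by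
    rw [hval]
    exact hmax p' hp' hle (σ.toEmbedding.trans e))
  refine ⟨fun i => ?_, fun hout c hc hlt => ?_⟩
  · have h8 := abs_le.1 (h6 (σ.symm i))
    simp only [Function.comp, Equiv.apply_symm_apply] at h8
    have h9 : p.1 (σ.symm i) ≤ p.1 ⟨0, hm⟩ := h1 p hp (Fin.le_def.2 (Nat.zero_le _))
    linarith [h8.2]
  · apply hδ x _ hx
    · intro a ha hpos
      rw [dotProduct_comm, extend_dot, dotProduct_comm] at hpos
      have h8 := h7 ((a ∘ e) ∘ σ) ⟨a, ha, σ.toEmbedding.trans e, rfl⟩ (by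
        conv_rhs => rw [← hσ1]
        rw [dot_comp_perm]; exact hpos)
      have h9 : ((a ∘ e) ∘ σ) ⬝ᵥ (fun i => Real.log (((x ∘ e) ∘ σ) i)) =
          a ⬝ᵥ Function.extend e (fun i => Real.log (x (e i))) 0 := by
        rw [dotProduct_comm a, extend_dot, dotProduct_comm _ (a ∘ e)]
        exact dot_comp_perm (a ∘ e) (fun i => Real.log (x (e i))) σ
      rw [h9] at h8
      have h10 : a ⬝ᵥ Function.extend e (fun i => Real.log (x (e i))) 0 -
          a ⬝ᵥ (fun i => Real.log (x i)) ≤ (∑ i, |a i|) * B := by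
        unfold dotProduct
        rw [← Finset.sum_sub_distrib, Finset.sum_mul]
        apply Finset.sum_le_sum
        intro j _
        rw [← mul_sub]
        refine (le_abs_self _).trans ?_
        rw [abs_mul]
        apply mul_le_mul_of_nonneg_left _ (abs_nonneg _)
        by_cases hj : j ∈ Set.range e
        · obtain ⟨i, rfl⟩ := hj
          rw [e.injective.extend_apply]; simpa using hB
        · rw [Function.extend_apply' _ _ _ hj]
          simpa using hout j hj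
      have h11 := mul_le_mul_of_nonneg_right (hN a ha) hB
      linarith
    · by_contra hne
      push Not at hne
      have : ∀ z ∈ stoichSubspace R, Function.extend e p.1 0 ⬝ᵥ z = 0 := by
        intro z hz
        induction hz using Submodule.span_induction with
        | mem z hz => obtain ⟨r, hr, rfl⟩ := hz; exact hne r hr
        | zero => simp
        | add x y _ _ h1 h2 => rw [dotProduct_add, h1, h2, add_zero]
        | smul a x _ h1 => rw [dotProduct_smul, h1, smul_zero]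
      have h8 := this _ hc
      rw [dotProduct_sub, extend_dot, extend_dot] at h8
      linarith

/-- the family of half-spaces attached to `W` at level `θ` -/
def fam (d : ℕ) {m : ℕ} (W : Set ((Fin m → ℝ) × ℝ)) (θ : ℝ) : Set ((Fin d → ℝ) × ℝ) :=
  {q | ∃ p ∈ W, ∃ e : Fin m ↪ Fin d, q = (Function.extend e p.1 0, p.2 + θ)}

lemma locFin_fam {m : ℕ} {W W' : Set ((Fin m → ℝ) × ℝ)} (hW : W' ⊆ W) (θ : ℝ)
    (h : ∀ r R θ : ℝ, 0 < r →
      {p ∈ W | ∃ y : Fin m → ℝ, (∀ i, r ≤ y i ∧ y i ≤ R) ∧ θ ≤ p.1 ⬝ᵥ y - p.2}.Finite) :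
    LocFin (fam d W' θ) := by
  intro r R hr
  apply (((h r R θ hr).prod (Set.finite_univ (α := Fin m ↪ Fin d))).image
    (fun q => ((Function.extend q.2 q.1.1 (0 : Fin d → ℝ) : Fin d → ℝ), q.1.2 + θ))).subset
  rintro _ ⟨⟨p, hp, e, rfl⟩, x, hx, hle⟩
  refine ⟨(p, e), ⟨⟨hW hp, x ∘ e, fun i => hx _, ?_⟩, trivial⟩, rfl⟩
  simp only [extend_dot] at hle
  linarith

lemma continuous_field (R : Network d) (k : (Fin d → ℕ) × (Fin d → ℕ) → ℝ) :
    Continuous (field R k) := by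
  unfold field; fun_prop

lemma isClosed_class (R : Network d) (c : Fin d → ℝ) : IsClosed {x | x - c ∈ stoichSubspace R} :=
  (stoichSubspace R).closed_of_finiteDimensional.preimage (continuous_id.sub continuous_const)

theorem top_stage (hd : 1 ≤ d) (R : Network d) (hR : IsWeaklyReversible R)
    (k : (Fin d → ℕ) × (Fin d → ℕ) → ℝ) (hk : ∀ r ∈ R, 0 < k r)
    (c : Fin d → ℝ) (hc : ∀ i, 0 < c i) :
    ∃ (Q : Set (Fin d → ℝ)) (R₀ : ℝ), Nice (field R k) {x | x - c ∈ stoichSubspace R} Q ∧ c ∈ Q ∧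
      ∀ x ∈ Q, (∀ i, 0 < x i) → ∀ i, x i ≤ R₀ := by
  obtain ⟨W, C, hC, h1, h2, h3, h4, h5⟩ := core R hR k hk d hd 0 le_rfl
  obtain ⟨r, R', hr, hbox⟩ := exists_box_nhds hc
  have hcb : c ∈ box d r R' := mem_of_mem_nhds hbox
  obtain ⟨M, hM⟩ : ∃ M : ℝ, ∀ p ∈ W, ∀ e : Fin d ↪ Fin d, p.1 ⬝ᵥ (c ∘ e) - p.2 < M := by
    obtain ⟨M, hM⟩ := (((h3 r R' 0 hr).prod (Set.finite_univ (α := Fin d ↪ Fin d))).image
      (fun q => q.1.1 ⬝ᵥ (c ∘ q.2) - q.1.2)).bddAbove
    refine ⟨max M 0 + 1, fun p hp e => ?_⟩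
    by_cases h : 0 ≤ p.1 ⬝ᵥ (c ∘ e) - p.2
    · have := hM ⟨(p, e), ⟨⟨hp, c ∘ e, fun i => hcb _, h⟩, trivial⟩, rfl⟩
      have := le_max_left M 0
      simp only at *
      linarith
    · have := le_max_right M 0
      linarith
  obtain ⟨p₀, hp₀, q, hq1, hq2, -⟩ := h4 (⌈C⌉ + 1)
  refine ⟨Set.univ ∩ Hs (fam d W M), p₀.2 + M, ?_, ⟨trivial, ?_⟩, ?_⟩
  · apply (Nice.univ _ _).step (continuous_field R k) (isClosed_class R c)
      (locFin_fam subset_rfl M h3)
    rintro x - hxT hx _ ⟨p, hp, e, rfl⟩ hle hmax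
    simp only [extend_dot] at hle hmax
    refine (h5 p hp e x hx (fun p' hp' _ e' => ?_)).2 (fun j hj => ?_) c hxT ?_
    · have := hmax _ ⟨p', hp', e', rfl⟩
      simp only [extend_dot] at this
      linarith
    · exact absurd ((Finite.injective_iff_surjective.1 e.injective) j) hj
    · have := hM p hp e
      linarith
  · rintro _ ⟨p, hp, e, rfl⟩
    simp only [extend_dot]
    have := hM p hp e
    linarith
  · rintro x ⟨-, hx⟩ hpos i
    have h6 := hx _ ⟨p₀, hp₀, Function.Embedding.refl _, rfl⟩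
    simp only [extend_dot] at h6
    have h7 : 1 ≤ q := by
      have := abs_le.1 hq2
      have := Int.le_ceil C
      push_cast at *
      linarith
    have h8 : p₀.1 i * x i ≤ p₀.1 ⬝ᵥ (x ∘ Function.Embedding.refl _) :=
      Finset.single_le_sum (f := fun j => p₀.1 j * x j) (fun j _ => by
        rw [hq1]; exact mul_nonneg (by linarith) (hpos j).le) (Finset.mem_univ i)
    rw [hq1] at h8
    have := hpos i
    nlinarith

open Classical in
theorem cut_stage (R : Network d) (hR : IsWeaklyReversible R)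
    (k : (Fin d → ℕ) × (Fin d → ℕ) → ℝ) (hk : ∀ r ∈ R, 0 < k r)
    (c : Fin d → ℝ) (hc : ∀ i, 0 < c i) (m : ℕ) (hm : 0 < m) {Q : Set (Fin d → ℝ)} {R₀ r : ℝ}
    (hQ : Nice (field R k) {x | x - c ∈ stoichSubspace R} Q) (hcQ : c ∈ Q)
    (hup : ∀ x ∈ Q, (∀ i, 0 < x i) → ∀ i, x i ≤ R₀) (hr : 0 < r)
    (hlow : ∀ x ∈ Q, (∀ i, 0 < x i) → (Finset.univ.filter fun j => x j < r).card < m + 1) :
    ∃ (Q' : Set (Fin d → ℝ)) (r' : ℝ), Q' ⊆ Q ∧ Nice (field R k) {x | x - c ∈ stoichSubspace R} Q' ∧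
      c ∈ Q' ∧ 0 < r' ∧
      ∀ x ∈ Q', (∀ i, 0 < x i) → (Finset.univ.filter fun j => x j < r').card < m := by
  obtain ⟨W, C, hC, h1, h2, h3, h4, h5⟩ := core R hR k hk m hm (max |Real.log r| |Real.log R₀|)
    ((abs_nonneg _).trans (le_max_left _ _))
  obtain ⟨ε, ⟨⟨hε1, hε2⟩, hε3, hε4⟩, hε⟩ : ∃ ε : ℝ, ((ε < Real.exp (-(2 * C)) ∧
      ε < r * Real.exp (-(2 * C))) ∧ (∀ i, ε < c i) ∧ ε < Real.exp (-1 - C)) ∧ 0 < ε := by
    have a1 : ∀ a : ℝ, 0 < a → ∀ᶠ ε in 𝓝[>] (0 : ℝ), ε < a := fun a ha =>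
      nhdsWithin_le_nhds (gt_mem_nhds ha)
    exact ((((a1 _ (Real.exp_pos _)).and (a1 _ (by positivity))).and
      ((eventually_all.2 fun i => a1 _ (hc i)).and (a1 _ (Real.exp_pos _)))).and
      self_mem_nhdsWithin).exists
  set W' := {p ∈ W | p.1 ⟨0, hm⟩ < 0} with hW'
  have hneg : ∀ p ∈ W', ∀ (y : Fin m → ℝ), (∀ i, 0 < y i) →
      p.1 ⬝ᵥ y ≤ p.1 ⟨0, hm⟩ * y ⟨0, hm⟩ := by
    intro p hp y hy
    have : -(p.1 ⟨0, hm⟩ * y ⟨0, hm⟩) ≤ ∑ j, -(p.1 j * y j) :=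
      Finset.single_le_sum (f := fun j => -(p.1 j * y j)) (fun j _ => by
        have h6 : p.1 j ≤ p.1 ⟨0, hm⟩ := h1 p hp.1 (Fin.le_def.2 (Nat.zero_le _))
        have h7 := hp.2
        have := hy j
        nlinarith) (Finset.mem_univ _)
    rw [Finset.sum_neg_distrib] at this
    unfold dotProduct
    linarith
  have hcval : ∀ p ∈ W', ∀ e : Fin m ↪ Fin d, p.1 ⬝ᵥ (c ∘ e) < p.2 + -ε := by
    intro p hp e
    have h6 := hneg p hp (c ∘ e) (fun i => hc _)
    have h7 := h2 p hp.1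
    have h8 := hc (e ⟨0, hm⟩)
    have h9 := hε3 (e ⟨0, hm⟩)
    have h10 := hp.2
    have h11 := Real.exp_pos (p.1 ⟨0, hm⟩ - C)
    simp only [Function.comp] at h6
    rcases le_total (p.1 ⟨0, hm⟩) (-1) with h | h
    · nlinarith
    · have : Real.exp (-1 - C) ≤ Real.exp (p.1 ⟨0, hm⟩ - C) := Real.exp_le_exp.2 (by linarith)
      nlinarith
  obtain ⟨t, ht1, ht2⟩ : ∃ t : ℤ, C * Real.exp t < ε / 2 ∧ (t : ℝ) < -C := by
    have a1 : Tendsto (fun t : ℤ => C * Real.exp t) atBot (𝓝 (C * 0)) :=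
      (Real.tendsto_exp_atBot.comp (tendsto_intCast_atBot_iff.2 tendsto_id)).const_mul C
    rw [mul_zero] at a1
    have a2 : Tendsto (fun t : ℤ => (t : ℝ)) atBot atBot := (tendsto_intCast_atBot_iff.2 tendsto_id)
    exact ((a1.eventually (gt_mem_nhds (half_pos hε))).and (a2.eventually (eventually_lt_atBot _))).exists
  obtain ⟨p₀, hp₀, q, hq1, hq2, hq3⟩ := h4 t
  have hq : q < 0 := by have := abs_le.1 hq2; linarith
  have hm' : (0 : ℝ) < m := by exact_mod_cast hm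
  refine ⟨Q ∩ Hs (fam d W' (-ε)), ε / (2 * m * (-q)), Set.inter_subset_left, ?_, ⟨hcQ, ?_⟩,
    div_pos hε (mul_pos (by linarith) (by linarith)), ?_⟩
  · apply hQ.step (continuous_field R k) (isClosed_class R c)
      (locFin_fam (Set.sep_subset _ _) (-ε) h3)
    rintro x hxQ hxT hx _ ⟨p, hp, e, rfl⟩ hle hmax
    simp only [extend_dot] at hle hmax
    have h6 := hneg p hp (x ∘ e) (fun i => hx _)
    have h7 := h2 p hp.1
    have h8 : p.1 ⟨0, hm⟩ * (x ∘ e) ⟨0, hm⟩ < 0 := mul_neg_of_neg_of_pos hp.2 (hx _)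
    have h9 : Real.exp (p.1 ⟨0, hm⟩ - C) < ε := by linarith
    have h10 : p.1 ⟨0, hm⟩ + C < 0 := by
      have := Real.exp_lt_exp.1 (h9.trans hε1); linarith
    have h11 : p.1 ⟨0, hm⟩ + C < Real.log r := by
      have h12 := h9.trans hε2
      rw [← Real.exp_log hr, ← Real.exp_add, Real.exp_lt_exp] at h12
      linarith
    obtain ⟨h12, h13⟩ := h5 p hp.1 e x hx (fun p' hp' hle' e' => by
      have := hmax _ ⟨p', ⟨hp', by linarith⟩, e', rfl⟩
      simp only [extend_dot] at this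
      linarith)
    refine h13 (fun j hj => ?_) c hxT (by have := hcval p hp e; linarith)
    have h14 : r ≤ x j := by
      by_contra hlt
      have h15 := hlow x hxQ hx
      have h16 : insert j (Finset.univ.map e) ⊆ Finset.univ.filter fun j => x j < r := by
        intro l hl
        rw [Finset.mem_filter]
        refine ⟨Finset.mem_univ _, ?_⟩
        rcases Finset.mem_insert.1 hl with rfl | hl
        · exact not_le.1 hlt
        · obtain ⟨i, -, rfl⟩ := Finset.mem_map.1 hl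
          exact (Real.log_lt_log_iff (hx _) hr).1 ((h12 i).trans_lt h11)
      have h17 := Finset.card_le_card h16
      rw [Finset.card_insert_of_notMem (by
        intro h; obtain ⟨i, -, rfl⟩ := Finset.mem_map.1 h; exact hj ⟨i, rfl⟩)] at h17
      simp only [Finset.card_map, Finset.card_univ, Fintype.card_fin] at h17
      omega
    have h18 := Real.log_le_log hr h14
    have h19 := Real.log_le_log (hx j) (hup x hxQ hx j)
    rw [abs_le]
    constructor
    · have := neg_abs_le (Real.log r)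
      have := le_max_left |Real.log r| |Real.log R₀|
      linarith
    · have := le_abs_self (Real.log R₀)
      have := le_max_right |Real.log r| |Real.log R₀|
      linarith
  · rintro _ ⟨p, hp, e, rfl⟩
    simp only [extend_dot]
    exact (hcval p hp e).le
  · rintro x ⟨-, hx⟩ hpos
    by_contra hge
    obtain ⟨e, he⟩ := Function.Embedding.exists_of_card_le_finset (α := Fin m)
      (s := Finset.univ.filter fun j => x j < ε / (2 * m * (-q))) (by simpa using hge)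
    have h6 := hx _ ⟨p₀, ⟨hp₀, by rw [hq1]; exact hq⟩, e, rfl⟩
    simp only [extend_dot] at h6
    have h7 : ∑ _i : Fin m, q * (ε / (2 * m * (-q))) ≤ p₀.1 ⬝ᵥ (x ∘ e) := by
      apply Finset.sum_le_sum
      intro i _
      rw [hq1]
      have := he ⟨i, rfl⟩
      simp only [Finset.coe_filter, Finset.mem_univ, true_and, Set.mem_ofPred_eq] at this
      exact mul_le_mul_of_nonpos_left this.le hq.le
    rw [Finset.sum_const, Finset.card_univ, Fintype.card_fin, nsmul_eq_mul] at h7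
    have h8 : (m : ℝ) * (q * (ε / (2 * m * (-q)))) = -(ε / 2) := by
      have := hq.ne
      field_simp
    linarith

theorem exists_nice (hd : 1 ≤ d) (R : Network d) (hR : IsWeaklyReversible R)
    (k : (Fin d → ℕ) × (Fin d → ℕ) → ℝ) (hk : ∀ r ∈ R, 0 < k r)
    (c : Fin d → ℝ) (hc : ∀ i, 0 < c i) :
    ∃ (Q : Set (Fin d → ℝ)) (r R₀ : ℝ), Nice (field R k) {x | x - c ∈ stoichSubspace R} Q ∧
      c ∈ Q ∧ 0 < r ∧ ∀ x ∈ Q, (∀ i, 0 < x i) → x ∈ box d r R₀ := by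
  classical
  obtain ⟨Q₀, R₀, hQ₀, hc₀, hup⟩ := top_stage hd R hR k hk c hc
  have main : ∀ j, j ≤ d → ∃ (Q : Set (Fin d → ℝ)) (r : ℝ), Q ⊆ Q₀ ∧
      Nice (field R k) {x | x - c ∈ stoichSubspace R} Q ∧ c ∈ Q ∧ 0 < r ∧
      ∀ x ∈ Q, (∀ i, 0 < x i) → (Finset.univ.filter fun l => x l < r).card < d - j + 1 := by
    intro j
    induction j with
    | zero =>
      intro _
      refine ⟨Q₀, 1, subset_rfl, hQ₀, hc₀, one_pos, fun x _ _ => ?_⟩
      have := Finset.card_le_univ (Finset.univ.filter fun l => x l < 1)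
      simp only [Fintype.card_fin] at this
      omega
    | succ j ih =>
      intro hj
      obtain ⟨Q, r, h1, h2, h3, h4, h5⟩ := ih (by omega)
      obtain ⟨Q', r', h6, h7, h8, h9, h10⟩ := cut_stage R hR k hk c hc (d - j) (by omega) h2 h3
        (fun x hx => hup x (h1 hx)) h4 h5
      refine ⟨Q', r', h6.trans h1, h7, h8, h9, fun x hx hpos => ?_⟩
      have := h10 x hx hpos
      omega
  obtain ⟨Q, r, h1, h2, h3, h4, h5⟩ := main d le_rfl
  refine ⟨Q, r, R₀, h2, h3, h4, fun x hx hpos i => ⟨?_, hup x (h1 hx) hpos i⟩⟩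
  have h6 := h5 x hx hpos
  rw [Nat.sub_self, zero_add, Nat.lt_one_iff, Finset.card_eq_zero, Finset.filter_eq_empty_iff] at h6
  exact not_lt.1 (h6 (Finset.mem_univ i))

end Crest.Agent.R092
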