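import Crest.Agent.R092.OneD

set_option autoImplicit false

/-! The tree of slopes: level by level, from the largest coordinate down, a slope is either an
integer far from all pivots or a pivot. -/

namespace Crest.Agent.R092

open Real Finset

/-- partial dot product -/
def dot (i : ℕ) (a w : ℕ → ℝ) : ℝ := ∑ j ∈ range i, a j * w j

/-- the braid vector `e_{i+1} - e_i` -/
def braidVec (i : ℕ) : ℕ → ℝ := fun j => if j = i + 1 then 1 else if j = i then -1 else 0

/-- closure under elimination of the last coordinate `i` -/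
def ClosedAt (A : Set (ℕ → ℝ)) (i : ℕ) : Prop :=
  ∀ a ∈ A, ∀ a' ∈ A, a i ≠ 0 → a' i ≠ 0 → (∀ j, i < j → a j = 0) → (∀ j, i < j → a' j = 0) →
    (fun j => a j / a i - a' j / a' i) ∈ A

/-- the parameters of the tree -/
structure Par where
  n : ℕ
  A : Set (ℕ → ℝ)
  μ : ℝ
  γ : ℕ → ℝ
  L : ℕ → ℝ
  E0 : ℝ
  μ_pos : 0 < μ
  μ_le : μ ≤ 1
  hγ : ∀ i < n, γ (i + 1) ≤ μ * L i
  hL : ∀ i < n, 2 * L i ^ 2 ≤ γ i
  hL2 : ∀ i, 2 ≤ L i
  hE0 : 48 * (n : ℝ) + 1 ≤ E0
  closed : ∀ i < n, ClosedAt A i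
  hμ : ∀ a ∈ A, ∀ i, a i ≠ 0 → μ ≤ |a i|
  braid : ∀ i, i + 1 < n → braidVec i ∈ A

/-- a node of the tree: slopes so far, error bound, cost -/
structure St where
  w : ℕ → ℝ
  E : ℝ
  g : ℝ

/-- the pivots at level `i` -/
def piv (A : Set (ℕ → ℝ)) (i : ℕ) (w : ℕ → ℝ) : Set ℝ :=
  {c | ∃ a ∈ A, a i ≠ 0 ∧ (∀ j, i < j → a j = 0) ∧ c = -dot i a w / a i}

namespace Par

variable (p : Par)

open Classical in
/-- one level of the tree -/
noncomputable def step (i : ℕ) (s : St) (k : ℤ) : St where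
  w := Function.update s.w i (rho (piv p.A i s.w) (p.L i * s.E) k)
  E := if rho (piv p.A i s.w) (p.L i * s.E) k ∈ piv p.A i s.w then 2 * (p.L i * s.E) else s.E
  g := s.g + GG (piv p.A i s.w) (p.L i * s.E) k

/-- the node at depth `i` along the index sequence `κ` -/
noncomputable def st (κ : ℕ → ℤ) : ℕ → St
  | 0 => ⟨0, p.E0, 0⟩
  | i + 1 => p.step i (st κ i) (κ i)

/-- pivots at depth `i` -/
def PP (κ : ℕ → ℤ) (i : ℕ) : Set ℝ := piv p.A i (p.st κ i).w
/-- window half-width at depth `i` -/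
noncomputable def DD (κ : ℕ → ℤ) (i : ℕ) : ℝ := p.L i * (p.st κ i).E
/-- the slope chosen at depth `i` -/
noncomputable def wv (κ : ℕ → ℤ) (i : ℕ) : ℝ := rho (p.PP κ i) (p.DD κ i) (κ i)

lemma st_congr {κ κ' : ℕ → ℤ} {i : ℕ} (h : ∀ j < i, κ j = κ' j) : p.st κ i = p.st κ' i := by
  induction i with
  | zero => rfl
  | succ i ih =>
    simp only [st]
    rw [ih (fun j hj => h j (by omega)), h i (by omega)]

lemma PP_congr {κ κ' : ℕ → ℤ} {i : ℕ} (h : ∀ j < i, κ j = κ' j) : p.PP κ i = p.PP κ' i := by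
  unfold PP; rw [p.st_congr h]

lemma DD_congr {κ κ' : ℕ → ℤ} {i : ℕ} (h : ∀ j < i, κ j = κ' j) : p.DD κ i = p.DD κ' i := by
  unfold DD; rw [p.st_congr h]

lemma wv_congr {κ κ' : ℕ → ℤ} {i : ℕ} (h : ∀ j ≤ i, κ j = κ' j) : p.wv κ i = p.wv κ' i := by
  unfold wv
  rw [p.PP_congr (fun j hj => h j hj.le), p.DD_congr (fun j hj => h j hj.le), h i le_rfl]

lemma st_succ_w (κ : ℕ → ℤ) (i : ℕ) :
    (p.st κ (i + 1)).w = Function.update (p.st κ i).w i (p.wv κ i) := rfl

open Classical in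
lemma st_succ_E (κ : ℕ → ℤ) (i : ℕ) :
    (p.st κ (i + 1)).E = if p.wv κ i ∈ p.PP κ i then 2 * p.DD κ i else (p.st κ i).E := rfl

lemma st_succ_g (κ : ℕ → ℤ) (i : ℕ) :
    (p.st κ (i + 1)).g = (p.st κ i).g + GG (p.PP κ i) (p.DD κ i) (κ i) := rfl

lemma st_w (κ : ℕ → ℤ) {i j : ℕ} (h : j < i) : (p.st κ i).w j = p.wv κ j := by
  induction i with
  | zero => omega
  | succ i ih =>
    rw [st_succ_w]
    rcases Nat.lt_succ_iff_lt_or_eq.1 h with h' | h'
    · rw [Function.update_of_ne (by omega), ih h']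
    · subst h'; simp

lemma dot_st (κ : ℕ → ℤ) (i : ℕ) (a : ℕ → ℝ) : dot i a (p.st κ i).w = dot i a (p.wv κ) := by
  unfold dot
  apply Finset.sum_congr rfl
  intro j hj
  rw [p.st_w κ (mem_range.1 hj)]

lemma one_le_E0 : 1 ≤ p.E0 := by
  have := p.hE0
  have : (0 : ℝ) ≤ p.n := Nat.cast_nonneg _
  linarith

lemma E0_le (κ : ℕ → ℤ) (i : ℕ) : p.E0 ≤ (p.st κ i).E := by
  induction i with
  | zero => exact le_rfl
  | succ i ih =>
    rw [st_succ_E]
    split_ifs
    · unfold DD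
      have := p.hL2 i
      have := p.one_le_E0
      nlinarith
    · exact ih

lemma E_pos (κ : ℕ → ℤ) (i : ℕ) : 0 < (p.st κ i).E := by
  have := p.E0_le κ i
  have := p.one_le_E0
  linarith

lemma two_E_le_DD (κ : ℕ → ℤ) (i : ℕ) : 2 * (p.st κ i).E ≤ p.DD κ i := by
  unfold DD
  exact mul_le_mul_of_nonneg_right (p.hL2 i) (p.E_pos κ i).le

lemma one_le_DD (κ : ℕ → ℤ) (i : ℕ) : 1 ≤ p.DD κ i := by
  have := p.two_E_le_DD κ i
  have := p.E0_le κ i
  have := p.one_le_E0
  linarith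

lemma E_le_succ (κ : ℕ → ℤ) (i : ℕ) : (p.st κ i).E ≤ (p.st κ (i + 1)).E := by
  rw [st_succ_E]
  split_ifs
  · have := p.two_E_le_DD κ i
    have := p.E_pos κ i
    linarith
  · exact le_rfl

lemma E_mono (κ : ℕ → ℤ) : Monotone fun i => (p.st κ i).E :=
  monotone_nat_of_le_succ (p.E_le_succ κ)

lemma E_succ_le (κ : ℕ → ℤ) (i : ℕ) : (p.st κ (i + 1)).E ≤ 2 * p.DD κ i := by
  rw [st_succ_E]
  split_ifs
  · exact le_rfl
  · have := p.two_E_le_DD κ i
    have := p.E_pos κ i
    linarith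

/-- a uniform bound for the error at depth `i` -/
noncomputable def Emax (i : ℕ) : ℝ := p.E0 * ∏ j ∈ range i, (2 * p.L j)

lemma E_le_Emax (κ : ℕ → ℤ) (i : ℕ) : (p.st κ i).E ≤ p.Emax i := by
  induction i with
  | zero => simp [Emax, st]
  | succ i ih =>
    refine (p.E_succ_le κ i).trans ?_
    unfold Emax DD at *
    rw [prod_range_succ]
    have := p.hL2 i
    nlinarith

lemma Emax_le_succ (i : ℕ) : p.Emax i ≤ p.Emax (i + 1) := by
  have h0 : 0 ≤ p.Emax i := (p.E_pos (fun _ => 0) i).le.trans (p.E_le_Emax _ i)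
  have : p.Emax (i + 1) = p.Emax i * (2 * p.L i) := by
    unfold Emax; rw [prod_range_succ]; ring
  rw [this]
  have := p.hL2 i
  nlinarith

lemma DD_le_Emax (κ : ℕ → ℤ) {i : ℕ} (hi : i < p.n) : 2 * p.DD κ i ≤ p.Emax p.n := by
  have h1 : 2 * p.DD κ i ≤ p.Emax (i + 1) := by
    have : p.Emax (i + 1) = p.Emax i * (2 * p.L i) := by
      unfold Emax; rw [prod_range_succ]; ring
    rw [this]
    unfold DD
    have := p.hL2 i
    have := p.E_le_Emax κ i
    nlinarith
  exact h1.trans (monotone_nat_of_le_succ p.Emax_le_succ (by omega : i + 1 ≤ p.n))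

/-- the gap invariant at depth `i` -/
def Gap (κ : ℕ → ℤ) (i : ℕ) : Prop :=
  ∀ a ∈ p.A, (∀ j, i ≤ j → a j = 0) →
    dot i a (p.wv κ) = 0 ∨ p.γ i * (p.st κ i).E ≤ |dot i a (p.wv κ)|

lemma piv_diff {κ : ℕ → ℤ} {i : ℕ} (hi : i < p.n) (hg : p.Gap κ i) {c c' : ℝ}
    (hc : c ∈ p.PP κ i) (hc' : c' ∈ p.PP κ i) :
    c = c' ∨ p.γ i * (p.st κ i).E ≤ |c - c'| := by
  obtain ⟨a, ha, ha0, ha1, rfl⟩ := hc
  obtain ⟨a', ha', ha0', ha1', rfl⟩ := hc'
  have hz := p.closed i hi a' ha' a ha ha0' ha0 ha1' ha1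
  have hz0 : ∀ j, i ≤ j → (fun j => a' j / a' i - a j / a i) j = 0 := by
    intro j hj
    rcases hj.lt_or_eq with h | h
    · simp [ha1 j h, ha1' j h]
    · subst h; simp [div_self ha0, div_self ha0']
  have e : dot i (fun j => a' j / a' i - a j / a i) (p.wv κ) =
      -dot i a (p.st κ i).w / a i - -dot i a' (p.st κ i).w / a' i := by
    rw [dot_st, dot_st]
    unfold dot
    rw [neg_div, neg_div, Finset.sum_div, Finset.sum_div, sub_neg_eq_add, neg_add_eq_sub,
      ← Finset.sum_sub_distrib]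
    apply Finset.sum_congr rfl
    intro j _
    ring
  rcases hg _ hz hz0 with h | h
  · left; rw [e] at h; linarith
  · right; rw [e] at h; exact h

lemma sep_of_gap {κ : ℕ → ℤ} {i : ℕ} (hi : i < p.n) (hg : p.Gap κ i) :
    Sep (p.PP κ i) (p.DD κ i) := by
  intro c hc c' hc'
  rcases p.piv_diff hi hg hc hc' with h | h
  · exact Or.inl h
  · right
    refine le_trans ?_ h
    unfold DD
    have h1 := p.hL i hi
    have h2 := p.hL2 i
    have h3 := p.E_pos κ i
    have : 3 * p.L i ≤ p.γ i := by nlinarith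
    nlinarith

lemma gap (κ : ℕ → ℤ) {i : ℕ} (hi : i ≤ p.n) : p.Gap κ i := by
  induction i with
  | zero => intro a _ _; left; simp [dot]
  | succ i ih =>
    have hi' : i < p.n := by omega
    have hg := ih hi'.le
    intro a ha ha1
    have h1 := p.hL i hi'
    have h2 := p.hL2 i
    have h3 := p.E_pos κ i
    have h4 := p.hγ i hi'
    have h5 := p.μ_pos
    have h6 := p.μ_le
    have h7 := p.E_pos κ (i + 1)
    have h8 := p.E_succ_le κ i
    have hdot : dot (i + 1) a (p.wv κ) = dot i a (p.wv κ) + a i * p.wv κ i := by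
      unfold dot; rw [sum_range_succ]
    have hb : p.γ (i + 1) * (p.st κ (i + 1)).E ≤ p.μ * (p.γ i * (p.st κ i).E) := by
      calc p.γ (i + 1) * (p.st κ (i + 1)).E ≤ (p.μ * p.L i) * (p.st κ (i + 1)).E :=
            mul_le_mul_of_nonneg_right h4 h7.le
        _ ≤ (p.μ * p.L i) * (2 * p.DD κ i) :=
            mul_le_mul_of_nonneg_left h8 (by positivity)
        _ = p.μ * ((2 * p.L i ^ 2) * (p.st κ i).E) := by unfold DD; ring
        _ ≤ p.μ * (p.γ i * (p.st κ i).E) :=
            mul_le_mul_of_nonneg_left (mul_le_mul_of_nonneg_right h1 h3.le) h5.le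
    have hγ0 : 0 ≤ p.γ i * (p.st κ i).E := by
      apply mul_nonneg _ h3.le
      nlinarith
    by_cases ha0 : a i = 0
    · rw [hdot, ha0, zero_mul, add_zero]
      rcases hg a ha (fun j hj => by
        rcases hj.lt_or_eq with h | h
        · exact ha1 j h
        · subst h; exact ha0) with h | h
      · exact Or.inl h
      · right
        refine hb.trans (le_trans ?_ h)
        nlinarith
    · have hc : -dot i a (p.st κ i).w / a i ∈ p.PP κ i := ⟨a, ha, ha0, fun j hj => ha1 j hj, rfl⟩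
      rw [dot_st] at hc
      have e : dot (i + 1) a (p.wv κ) = a i * (p.wv κ i - -dot i a (p.wv κ) / a i) := by
        rw [hdot]; field_simp; ring
      have hm := p.hμ a ha i ha0
      rw [e, abs_mul]
      by_cases hp : p.wv κ i ∈ p.PP κ i
      · rcases p.piv_diff hi' hg hp hc with h | h
        · left; rw [← h]; simp
        · right
          refine hb.trans ?_
          exact mul_le_mul hm h hγ0 (abs_nonneg _)
      · right
        obtain ⟨h9, h10⟩ := rho_of_notMem hp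
        have h11 := h10 _ hc
        have h12 : p.wv κ i = κ i := h9
        rw [st_succ_E, if_neg hp, h12]
        calc p.γ (i + 1) * (p.st κ i).E ≤ (p.μ * p.L i) * (p.st κ i).E :=
              mul_le_mul_of_nonneg_right h4 h3.le
          _ = p.μ * p.DD κ i := by unfold DD; ring
          _ ≤ _ := mul_le_mul hm h11 (by linarith [p.one_le_DD κ i]) (abs_nonneg _)

lemma sep (κ : ℕ → ℤ) {i : ℕ} (hi : i < p.n) : Sep (p.PP κ i) (p.DD κ i) :=
  p.sep_of_gap hi (p.gap κ hi.le)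

lemma cap_mem (κ : ℕ → ℤ) {i : ℕ} (hi : i + 1 < p.n) : p.wv κ i ∈ p.PP κ (i + 1) := by
  refine ⟨braidVec i, p.braid i hi, by simp [braidVec], ?_, ?_⟩
  · intro j hj
    simp only [braidVec]
    rw [if_neg (by omega), if_neg (by omega)]
  · rw [dot_st]
    unfold dot
    rw [sum_range_succ, Finset.sum_eq_zero]
    · simp [braidVec]
    · intro j hj
      have := mem_range.1 hj
      simp only [braidVec]
      rw [if_neg (by omega), if_neg (by omega), zero_mul]

lemma g_eq_sum (κ : ℕ → ℤ) (i : ℕ) :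
    (p.st κ i).g = ∑ j ∈ range i, GG (p.PP κ j) (p.DD κ j) (κ j) := by
  induction i with
  | zero => simp [st]
  | succ i ih => rw [st_succ_g, sum_range_succ, ih]

lemma g_le (κ : ℕ → ℤ) {i m : ℕ} (him : i ≤ m) (hm : m ≤ p.n) : (p.st κ i).g ≤ (p.st κ m).g := by
  induction m, him using Nat.le_induction with
  | base => exact le_rfl
  | succ m him ih =>
    rw [st_succ_g]
    have := GG_nonneg (p.sep κ (by omega : m < p.n)) (p.one_le_DD κ m) (κ m)
    have := ih (by omega)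
    linarith

lemma wv_sub_le (κ : ℕ → ℤ) (i : ℕ) : p.wv κ i - κ i ≤ (p.st κ (i + 1)).E := by
  rw [st_succ_E]
  split_ifs with h
  · have := abs_lt.1 (rho_close (P := p.PP κ i) (p.one_le_DD κ i) (κ i))
    have := p.one_le_DD κ i
    unfold wv
    linarith
  · have h12 : p.wv κ i = κ i := (rho_of_notMem h).1
    rw [h12]
    have := p.E_pos κ i
    linarith

lemma err_le (κ : ℕ → ℤ) (i : ℕ) :
    err (p.PP κ i) (p.DD κ i) (κ i) + 2 * p.n ≤ (p.st κ (i + 1)).E := by
  rw [st_succ_E]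
  unfold err
  have h1 := p.two_E_le_DD κ i
  have h2 := p.E0_le κ i
  have h3 := p.hE0
  have h4 : (0 : ℝ) ≤ p.n := Nat.cast_nonneg _
  unfold wv
  split_ifs <;> linarith

lemma small (hn : 0 < p.n) {D : ℝ} (hD : 96 * (p.n : ℝ) ≤ D) :
    2 * (2 * D + 1) * Real.exp (-(D / 2)) ≤ 1 / (2 * p.n) := by
  have hn' : (1 : ℝ) ≤ p.n := by exact_mod_cast hn
  have hD0 : 0 ≤ D / 2 := by linarith
  have h1 : (D / 2) ^ 2 / 2 ≤ Real.exp (D / 2) := by
    have := Real.pow_div_factorial_le_exp (D / 2) hD0 2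
    simpa using this
  rw [Real.exp_neg, ← div_eq_mul_inv, div_le_div_iff₀ (Real.exp_pos _) (by linarith)]
  nlinarith

/-- extension by ties -/
lemma exists_tie_ext (κ : ℕ → ℤ) {i : ℕ} (hi : i < p.n) :
    ∃ κ' : ℕ → ℤ, (∀ j ≤ i, κ' j = κ j) ∧ (∀ j, i ≤ j → j < p.n → p.wv κ' j = p.wv κ i) ∧
      (p.st κ' p.n).g ≤ (p.st κ (i + 1)).g + 1 / 2 * Real.exp (κ i) := by
  have hn : 0 < p.n := by omega
  have hn' : (0 : ℝ) < p.n := by exact_mod_cast hn
  have main : ∀ m, i + 1 ≤ m → m ≤ p.n →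
      ∃ κ' : ℕ → ℤ, (∀ j ≤ i, κ' j = κ j) ∧ (∀ j, i ≤ j → j < m → p.wv κ' j = p.wv κ i) ∧
      (p.st κ' m).g ≤ (p.st κ (i + 1)).g + m * (1 / (2 * p.n) * Real.exp (κ i)) := by
    intro m hm
    induction m, hm using Nat.le_induction with
    | base =>
      intro _
      refine ⟨κ, fun _ _ => rfl, fun j h1 h2 => ?_, ?_⟩
      · have : j = i := by omega
        rw [this]
      · have : (0 : ℝ) ≤ ((i + 1 : ℕ) : ℝ) * (1 / (2 * p.n) * Real.exp (κ i)) := by positivity
        linarith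
    | succ m him ih =>
      intro hm
      obtain ⟨κ', h1, h2, h3⟩ := ih (by omega)
      obtain ⟨m', rfl⟩ : ∃ m', m = m' + 1 := ⟨m - 1, by omega⟩
      have hc := p.cap_mem κ' (i := m') (by omega)
      rw [h2 m' (by omega) (by omega)] at hc
      obtain ⟨k, hk1, hk2⟩ := exists_tie (p.sep κ' (by omega : m' + 1 < p.n)) (p.one_le_DD κ' _) hc
      have hag : ∀ j < m' + 1, Function.update κ' (m' + 1) k j = κ' j := fun j hj =>
        Function.update_of_ne (by omega) _ _
      refine ⟨Function.update κ' (m' + 1) k, fun j hj => ?_, fun j hj1 hj2 => ?_, ?_⟩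
      · rw [hag j (by omega), h1 j hj]
      · rcases Nat.lt_succ_iff_lt_or_eq.1 hj2 with h | h
        · rw [p.wv_congr (fun l hl => hag l (by omega)), h2 j hj1 h]
        · subst h
          unfold wv
          rw [p.PP_congr hag, p.DD_congr hag, Function.update_self]
          exact hk1
      · rw [st_succ_g, p.PP_congr hag, p.DD_congr hag, Function.update_self, p.st_congr hag]
        have hD1 := p.two_E_le_DD κ' (m' + 1)
        have hD2 := p.E0_le κ' (m' + 1)
        have hD3 := p.hE0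
        have hE : (p.st κ' (i + 1)).E ≤ (p.st κ' (m' + 1)).E := p.E_mono κ' him
        rw [p.st_congr (fun j hj => h1 j (by omega))] at hE
        have hw := p.wv_sub_le κ i
        set D := p.DD κ' (m' + 1)
        have hs := p.small hn (D := D) (by linarith)
        have hexp : Real.exp (p.wv κ i - D) ≤ Real.exp (-(D / 2)) * Real.exp (κ i) := by
          rw [← Real.exp_add]; apply Real.exp_le_exp.2; linarith
        have : GG (p.PP κ' (m' + 1)) D k ≤ 1 / (2 * p.n) * Real.exp (κ i) := by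
          refine hk2.trans ?_
          calc 2 * (2 * D + 1) * Real.exp (p.wv κ i - D)
              ≤ 2 * (2 * D + 1) * (Real.exp (-(D / 2)) * Real.exp (κ i)) :=
                mul_le_mul_of_nonneg_left hexp (by linarith)
            _ = (2 * (2 * D + 1) * Real.exp (-(D / 2))) * Real.exp (κ i) := by ring
            _ ≤ _ := mul_le_mul_of_nonneg_right hs (Real.exp_pos _).le
        push_cast at h3 ⊢
        linarith
  obtain ⟨κ', h1, h2, h3⟩ := main p.n (by omega) le_rfl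
  refine ⟨κ', h1, h2, h3.trans (le_of_eq ?_)⟩
  field_simp

end Par

end Crest.Agent.R092
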